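import Mathlib

/-!
Two-way behaviours: relations on ports (state, direction), words of them, reachability between
junctions of a word, and the replacement lemma.
-/

set_option autoImplicit false

namespace Crest.Agent.R294

/-- a port: a state and a direction (`true` = moving right) -/
abbrev Port (Q : Type*) := Q × Bool

/-- a two-way behaviour: relates an entry port to an exit port -/
def TW (Q : Type*) := Port Q → Port Q → Prop

variable {Q : Type*}

/-- one step through one block of a word; nodes are (junction, port) -/
def Step (w : List (TW Q)) (n n' : ℕ × Port Q) : Prop :=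
  ∃ k c, w[k]? = some c ∧ c n.2 n'.2 ∧ n.1 = (if n.2.2 then k else k + 1) ∧
    n'.1 = (if n'.2.2 then k + 1 else k)

def Reach (w : List (TW Q)) : ℕ × Port Q → ℕ × Port Q → Prop := Relation.ReflTransGen (Step w)

def Beh (w : List (TW Q)) : TW Q := fun u v =>
  Reach w (if u.2 then 0 else w.length, u) (if v.2 then w.length else 0, v)

theorem Reach.trans {w : List (TW Q)} {a b c : ℕ × Port Q} (h : Reach w a b) (h' : Reach w b c) :
    Reach w a c := Relation.ReflTransGen.trans h h'

theorem Reach.refl {w : List (TW Q)} {a : ℕ × Port Q} : Reach w a a := Relation.ReflTransGen.refl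

theorem Step.reach {w : List (TW Q)} {a b : ℕ × Port Q} (h : Step w a b) : Reach w a b :=
  Relation.ReflTransGen.single h

theorem Step.ctx (x y : List (TW Q)) {a : List (TW Q)} {n n' : ℕ × Port Q} (h : Step a n n') :
    Step (x ++ a ++ y) (x.length + n.1, n.2) (x.length + n'.1, n'.2) := by
  obtain ⟨k, c, hk, hc, h1, h2⟩ := h
  have hlt : k < a.length := by
    by_contra hh
    rw [List.getElem?_eq_none (by omega)] at hk
    cases hk
  refine ⟨x.length + k, c, ?_, hc, ?_, ?_⟩
  · rw [List.append_assoc, List.getElem?_append_right (by omega), Nat.add_sub_cancel_left,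
      List.getElem?_append_left hlt, hk]
  · simp only [h1]; split_ifs <;> omega
  · simp only [h2]; split_ifs <;> omega

theorem Reach.ctx (x y : List (TW Q)) {a : List (TW Q)} {n n' : ℕ × Port Q} (h : Reach a n n') :
    Reach (x ++ a ++ y) (x.length + n.1, n.2) (x.length + n'.1, n'.2) := by
  induction h with
  | refl => exact Reach.refl
  | tail _ hs ih => exact ih.trans (hs.ctx x y).reach

theorem Reach.ctx' (x y : List (TW Q)) {a : List (TW Q)} {i j : ℕ} {u v : Port Q}
    (h : Reach a (i, u) (j, v)) {i' j' : ℕ} (hi : i' = x.length + i) (hj : j' = x.length + j) :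
    Reach (x ++ a ++ y) (i', u) (j', v) := by
  subst hi hj
  exact h.ctx x y

/-- correspondence of outer junctions when a block of length `m` at `l` is replaced by one of
length `m'` -/
def Corr (l m m' i i' : ℕ) : Prop := (i ≤ l ∧ i' = i) ∨ (l + m ≤ i ∧ i' + m = i + m')

theorem replace (x a a' y : List (TW Q)) (ha : a ≠ []) (s t : ℕ × Port Q) (s' t' : ℕ)
    (hs : Corr x.length a.length a'.length s.1 s') (ht : Corr x.length a.length a'.length t.1 t')
    (h : Reach (x ++ a ++ y) s t)
    (H : ∀ u v : Port Q,
      Reach (x ++ a ++ y) s (if u.2 then x.length else x.length + a.length, u) → Beh a u v →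
      Reach (x ++ a ++ y) (if v.2 then x.length + a.length else x.length, v) t → Beh a' u v) :
    Reach (x ++ a' ++ y) (s', s.2) (t', t.2) := by
  have hal : 0 < a.length := List.length_pos_iff.mpr ha
  -- inner invariant
  let Inner : ℕ × Port Q → Prop := fun n => ∃ (u : Port Q) (i : ℕ),
      Reach (x ++ a ++ y) s (if u.2 then x.length else x.length + a.length, u) ∧
      Reach (x ++ a' ++ y) (s', s.2) (if u.2 then x.length else x.length + a'.length, u) ∧
      n.1 = x.length + i ∧ Reach a (if u.2 then 0 else a.length, u) (i, n.2) ∧
      (if n.2.2 then 1 ≤ i ∧ i ≤ a.length else i < a.length)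
  let Outer : ℕ × Port Q → Prop := fun n => ∃ n', Corr x.length a.length a'.length n.1 n' ∧
      Reach (x ++ a' ++ y) (s', s.2) (n', n.2)
  have norm : ∀ n n', Reach (x ++ a ++ y) n t → (Outer n ∨ Inner n) →
      Corr x.length a.length a'.length n.1 n' → Reach (x ++ a' ++ y) (s', s.2) (n', n.2) := by
    rintro n n' hnt (⟨n'', hc, hr⟩ | ⟨u, i, h1, h2, h3, h4, h5⟩) hc'
    · have : n'' = n' := by unfold Corr at hc hc'; omega
      exact this ▸ hr
    · obtain ⟨n1, v⟩ := n
      have hi : i = (if v.2 then a.length else 0) := by
        unfold Corr at hc'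
        simp only at h3 h5 hc'
        split_ifs at h5 ⊢ <;> omega
      have hb : Beh a u v := by
        unfold Beh; rw [← hi]; exact h4
      have hb' : Beh a' u v := by
        refine H u v h1 hb ?_
        have : n1 = (if v.2 then x.length + a.length else x.length) := by
          simp only at h3
          rw [h3, hi]; split_ifs <;> omega
        rw [← this]; exact hnt
      refine h2.trans (Reach.ctx' x y hb' ?_ ?_)
      · split_ifs <;> omega
      · unfold Corr at hc'
        simp only at h3 hc'
        rw [hi] at h3
        split_ifs at h3 ⊢ <;> omega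
  have main : ∀ n, Reach (x ++ a ++ y) s n → Reach (x ++ a ++ y) n t → (Outer n ∨ Inner n) := by
    intro n hn
    induction hn with
    | refl => intro _; exact Or.inl ⟨s', hs, Reach.refl⟩
    | @tail n n1 hsn hstep ih =>
      intro hn1
      have hnt : Reach (x ++ a ++ y) n t := hstep.reach.trans hn1
      have ih := ih hnt
      obtain ⟨k, c, hk, hc, h1, h2⟩ := hstep
      by_cases hk1 : k < x.length
      · left
        have hr := norm n n.1 hnt ih (Or.inl ⟨by rw [h1]; split_ifs <;> omega, rfl⟩)
        refine ⟨n1.1, Or.inl ⟨by rw [h2]; split_ifs <;> omega, rfl⟩, hr.trans (Step.reach ?_)⟩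
        refine ⟨k, c, ?_, hc, h1, h2⟩
        rw [List.append_assoc, List.getElem?_append_left hk1] at hk ⊢
        exact hk
      by_cases hk2 : x.length + a.length ≤ k
      · left
        have hr := norm n (n.1 - a.length + a'.length) hnt ih
          (Or.inr ⟨by rw [h1]; split_ifs <;> omega, by rw [h1]; split_ifs <;> omega⟩)
        refine ⟨n1.1 - a.length + a'.length,
          Or.inr ⟨by rw [h2]; split_ifs <;> omega, by rw [h2]; split_ifs <;> omega⟩,
          hr.trans (Step.reach ?_)⟩
        refine ⟨k - a.length + a'.length, c, ?_, hc, ?_, ?_⟩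
        · rw [List.getElem?_append_right (by simp; omega)] at hk ⊢
          rw [← hk]; congr 1; simp; omega
        · simp only [h1]; split_ifs <;> omega
        · simp only [h2]; split_ifs <;> omega
      right
      have hka : a[k - x.length]? = some c := by
        rw [List.getElem?_append_left (by simp; omega), List.getElem?_append_right (by omega)] at hk
        exact hk
      have hst : Step a (n.1 - x.length, n.2) (n1.1 - x.length, n1.2) := by
        refine ⟨k - x.length, c, hka, hc, ?_, ?_⟩
        · simp only [h1]; split_ifs <;> omega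
        · simp only [h2]; split_ifs <;> omega
      have hfin : n1.1 = x.length + (n1.1 - x.length) ∧
          (if n1.2.2 then 1 ≤ n1.1 - x.length ∧ n1.1 - x.length ≤ a.length
            else n1.1 - x.length < a.length) := by
        rw [h2]; split_ifs <;> omega
      rcases ih with ⟨n', hcn, hr⟩ | ⟨u, i, g1, g2, g3, g4, g5⟩
      · have e1 : n.1 = (if n.2.2 then x.length else x.length + a.length) := by
          unfold Corr at hcn; rw [h1] at hcn ⊢; split_ifs at hcn ⊢ <;> omega
        have e2 : n' = (if n.2.2 then x.length else x.length + a'.length) := by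
          unfold Corr at hcn; rw [h1] at hcn; split_ifs at hcn ⊢ <;> omega
        refine ⟨n.2, n1.1 - x.length, ?_, ?_, hfin.1, ?_, hfin.2⟩
        · rw [← e1]; exact hsn
        · rw [← e2]; exact hr
        · have : (if n.2.2 then 0 else a.length) = n.1 - x.length := by
            rw [e1]; split_ifs <;> omega
          rw [this]; exact hst.reach
      · refine ⟨u, n1.1 - x.length, g1, g2, hfin.1, g4.trans ?_, hfin.2⟩
        have : i = n.1 - x.length := by omega
        rw [this]; exact hst.reach
  exact norm t t' Reach.refl (main t h Reach.refl) ht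

theorem beh_single (a : TW Q) : Beh [a] = a := by
  funext u v
  apply propext
  constructor
  · intro h
    unfold Beh at h
    rcases Relation.ReflTransGen.cases_head h with h0 | ⟨n, h1, h2⟩
    · exfalso
      obtain ⟨e1, e2⟩ := Prod.mk.inj h0
      subst e2
      split_ifs at e1
    · obtain ⟨k, c, hk, hc, g1, g2⟩ := h1
      have hk0 : k = 0 := by
        by_contra hh
        rw [List.getElem?_eq_none (by simp; omega)] at hk
        cases hk
      subst hk0
      have hca : c = a := by simpa using hk.symm
      subst hca
      rcases Relation.ReflTransGen.cases_head h2 with h0 | ⟨n', h3, -⟩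
      · rw [h0] at hc; exact hc
      · exfalso
        obtain ⟨k', c', hk', -, g3, -⟩ := h3
        have hk0 : k' = 0 := by
          by_contra hh
          rw [List.getElem?_eq_none (by simp; omega)] at hk'
          cases hk'
        subst hk0
        rw [g2] at g3
        split_ifs at g3
  · intro h
    exact Step.reach ⟨0, a, rfl, h, by simp, by simp⟩

theorem collapse (x a y : List (TW Q)) (ha : a ≠ []) {i j i' j' : ℕ} {u v : Port Q}
    (hi : Corr x.length a.length 1 i i') (hj : Corr x.length a.length 1 j j') :
    Reach (x ++ a ++ y) (i, u) (j, v) ↔ Reach (x ++ [Beh a] ++ y) (i', u) (j', v) := by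
  have hal : 0 < a.length := List.length_pos_iff.mpr ha
  constructor
  · intro h
    exact replace x a [Beh a] y ha (i, u) (j, v) i' j' hi hj h
      (fun u v _ hb _ => by rw [beh_single]; exact hb)
  · intro h
    refine replace x [Beh a] a y (by simp) (i', u) (j', v) i j ?_ ?_ h
      (fun u v _ hb _ => by rw [beh_single] at hb; exact hb)
    · unfold Corr at hi ⊢; simp only [List.length_singleton]; omega
    · unfold Corr at hj ⊢; simp only [List.length_singleton]; omega

theorem beh_collapse (x a y : List (TW Q)) (ha : a ≠ []) :
    Beh (x ++ a ++ y) = Beh (x ++ [Beh a] ++ y) := by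
  funext u v
  apply propext
  unfold Beh
  apply collapse x a y ha <;> unfold Corr <;> simp <;> split_ifs <;> omega

instance : Mul (TW Q) := ⟨fun a b => Beh [a, b]⟩

theorem mul_def (a b : TW Q) : a * b = Beh [a, b] := rfl

theorem beh_three (a b c : TW Q) : Beh [a, b, c] = a * b * c :=
  beh_collapse [] [a, b] [c] (by simp)

instance : Semigroup (TW Q) where
  mul_assoc a b c := by
    rw [← beh_three]
    exact beh_collapse [a] [b, c] [] (by simp)

theorem beh_append (a b : List (TW Q)) (ha : a ≠ []) (hb : b ≠ []) :
    Beh (a ++ b) = Beh a * Beh b := by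
  have h1 := beh_collapse [] a b ha
  have h2 := beh_collapse [Beh a] b [] hb
  simp only [List.nil_append, List.append_nil] at h1 h2
  rw [h1, h2]; rfl

/-- merging two adjacent blocks -/
theorem merge (x y : List (TW Q)) (a b : TW Q) {i j i' j' : ℕ} {u v : Port Q}
    (hi : Corr x.length 2 1 i i') (hj : Corr x.length 2 1 j j') :
    Reach (x ++ [a, b] ++ y) (i, u) (j, v) ↔ Reach (x ++ [a * b] ++ y) (i', u) (j', v) :=
  collapse x [a, b] y (by simp) hi hj

/-- merging three adjacent blocks -/
theorem merge3 (x y : List (TW Q)) (a b c : TW Q) {i j i' j' : ℕ} {u v : Port Q}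
    (hi : Corr x.length 3 1 i i') (hj : Corr x.length 3 1 j j') :
    Reach (x ++ [a, b, c] ++ y) (i, u) (j, v) ↔ Reach (x ++ [a * b * c] ++ y) (i', u) (j', v) := by
  rw [← beh_three]
  exact collapse x [a, b, c] y (by simp) hi hj

/-- a path that goes from the left of junction `k` to its right crosses block `k` rightwards -/
theorem cross_right {w : List (TW Q)} {s t : ℕ × Port Q} (h : Reach w s t) (k : ℕ)
    (hs : s.1 ≤ k) (ht : k < t.1) :
    ∃ c u v, w[k]? = some c ∧ c u v ∧ u.2 = true ∧ v.2 = true ∧ Reach w s (k, u) ∧
      Reach w (k + 1, v) t := by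
  induction h with
  | refl => omega
  | @tail n n1 hsn hstep ih =>
    by_cases hn : k < n.1
    · obtain ⟨c, u, v, h1, h2, h3, h4, h5, h6⟩ := ih hn
      exact ⟨c, u, v, h1, h2, h3, h4, h5, h6.trans hstep.reach⟩
    · obtain ⟨k', c, hk, hc, g1, g2⟩ := hstep
      obtain ⟨n0, u⟩ := n
      obtain ⟨n2, v⟩ := n1
      simp only at g1 g2 hn ht hc
      have hu : u.2 = true := by
        by_contra hh
        split_ifs at g1 g2 <;> omega
      have hv : v.2 = true := by
        by_contra hh
        split_ifs at g1 g2 <;> omega
      simp only [hu, hv, if_true] at g1 g2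
      have : k' = k := by omega
      subst this
      subst g1 g2
      exact ⟨c, u, v, hk, hc, hu, hv, hsn, Reach.refl⟩

/-! ### the mirror image -/

def flip (u : Port Q) : Port Q := (u.1, !u.2)

@[simp] theorem flip_flip (u : Port Q) : flip (flip u) = u := by simp [flip]

@[simp] theorem flip_snd (u : Port Q) : (flip u).2 = !u.2 := rfl

def mir (a : TW Q) : TW Q := fun u v => a (flip u) (flip v)

@[simp] theorem mir_mir (a : TW Q) : mir (mir a) = a := by
  funext u v; simp [mir]

theorem Step.mir {w : List (TW Q)} {n n' : ℕ × Port Q} (h : Step w n n') :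
    Step (w.reverse.map mir) (w.length - n.1, flip n.2) (w.length - n'.1, flip n'.2) := by
  obtain ⟨k, c, hk, hc, h1, h2⟩ := h
  have hlt : k < w.length := by
    by_contra hh
    rw [List.getElem?_eq_none (by omega)] at hk
    cases hk
  refine ⟨w.length - 1 - k, R294.mir c, ?_, ?_, ?_, ?_⟩
  · rw [List.getElem?_map, List.getElem?_reverse (by omega)]
    have : w.length - 1 - (w.length - 1 - k) = k := by omega
    rw [this, hk]; rfl
  · simpa [R294.mir] using hc
  · by_cases hn : n.2.2 = true <;> simp [h1, hn] <;> omega
  · by_cases hn : n'.2.2 = true <;> simp [h2, hn] <;> omega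

theorem Reach.mir {w : List (TW Q)} {n n' : ℕ × Port Q} (h : Reach w n n') :
    Reach (w.reverse.map mir) (w.length - n.1, flip n.2) (w.length - n'.1, flip n'.2) := by
  induction h with
  | refl => exact Reach.refl
  | tail _ hs ih => exact ih.trans hs.mir.reach

theorem mir_mul_aux (a b : TW Q) (u v : Port Q) (h : (a * b) u v) :
    (mir b * mir a) (flip u) (flip v) := by
  have := Reach.mir h
  rw [mul_def]
  unfold Beh
  by_cases hu : u.2 = true <;> by_cases hv : v.2 = true <;> simpa [hu, hv] using this

@[simp] theorem mir_mul (a b : TW Q) : mir (a * b) = mir b * mir a := by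
  funext u v
  apply propext
  constructor
  · intro h
    simpa using mir_mul_aux a b _ _ h
  · intro h
    have := mir_mul_aux _ _ _ _ h
    simp only [mir_mir] at this
    exact this

end Crest.Agent.R294
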