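import Crest.Agent.R294.Beh

/-!
Calculus of reachability between the two junctions of a three-block word.
-/

set_option autoImplicit false

namespace Crest.Agent.R294

variable {Q : Type*}

def P (x a y : TW Q) (u v : Port Q) : Prop := Reach [x, a, y] (1, u) (2, v)
def M (x a y : TW Q) (u v : Port Q) : Prop := Reach [x, a, y] (2, u) (1, v)

theorem M_of_P {x a y : TW Q} {u v : Port Q} (h : P x a y u v) :
    M (mir y) (mir a) (mir x) (flip u) (flip v) := Reach.mir h

theorem P_of_M {x a y : TW Q} {u v : Port Q} (h : M x a y u v) :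
    P (mir y) (mir a) (mir x) (flip u) (flip v) := Reach.mir h

theorem M_iff {x a y : TW Q} {u v : Port Q} :
    M x a y u v ↔ P (mir y) (mir a) (mir x) (flip u) (flip v) :=
  ⟨P_of_M, fun h => by simpa using M_of_P h⟩

theorem M_iff' {x a y : TW Q} {u v : Port Q} :
    M x a y (flip u) (flip v) ↔ P (mir y) (mir a) (mir x) u v := by
  rw [M_iff]; simp

theorem m4a {x a b y : TW Q} {i j i' j' : ℕ} {u v : Port Q}
    (hi : Corr 0 2 1 i i') (hj : Corr 0 2 1 j j') :
    Reach [x, a, b, y] (i, u) (j, v) ↔ Reach [x * a, b, y] (i', u) (j', v) :=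
  merge [] [b, y] x a hi hj

theorem m4b {x a b y : TW Q} {i j i' j' : ℕ} {u v : Port Q}
    (hi : Corr 1 2 1 i i') (hj : Corr 1 2 1 j j') :
    Reach [x, a, b, y] (i, u) (j, v) ↔ Reach [x, a * b, y] (i', u) (j', v) :=
  merge [x] [y] a b hi hj

theorem m4c {x a b y : TW Q} {i j i' j' : ℕ} {u v : Port Q}
    (hi : Corr 2 2 1 i i') (hj : Corr 2 2 1 j j') :
    Reach [x, a, b, y] (i, u) (j, v) ↔ Reach [x, a, b * y] (i', u) (j', v) :=
  merge [x, a] [] b y hi hj

theorem m3a {x a y : TW Q} {i j i' j' : ℕ} {u v : Port Q}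
    (hi : Corr 0 2 1 i i') (hj : Corr 0 2 1 j j') :
    Reach [x, a, y] (i, u) (j, v) ↔ Reach [x * a, y] (i', u) (j', v) :=
  merge [] [y] x a hi hj

theorem m3b {x a y : TW Q} {i j i' j' : ℕ} {u v : Port Q}
    (hi : Corr 1 2 1 i i') (hj : Corr 1 2 1 j j') :
    Reach [x, a, y] (i, u) (j, v) ↔ Reach [x, a * y] (i', u) (j', v) :=
  merge [x] [] a y hi hj

macro "corr" : tactic => `(tactic| (unfold Corr; omega))

theorem P12 {x a b y : TW Q} {u v : Port Q} :
    P x a (b * y) u v ↔ Reach [x, a, b, y] (1, u) (2, v) := (m4c (by corr) (by corr)).symm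
theorem P23 {x a b y : TW Q} {u v : Port Q} :
    P (x * a) b y u v ↔ Reach [x, a, b, y] (2, u) (3, v) := (m4a (by corr) (by corr)).symm
theorem P13 {x a b y : TW Q} {u v : Port Q} :
    P x (a * b) y u v ↔ Reach [x, a, b, y] (1, u) (3, v) := (m4b (by corr) (by corr)).symm
theorem M21 {x a b y : TW Q} {u v : Port Q} :
    M x a (b * y) u v ↔ Reach [x, a, b, y] (2, u) (1, v) := (m4c (by corr) (by corr)).symm
theorem M32 {x a b y : TW Q} {u v : Port Q} :
    M (x * a) b y u v ↔ Reach [x, a, b, y] (3, u) (2, v) := (m4a (by corr) (by corr)).symm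
theorem M31 {x a b y : TW Q} {u v : Port Q} :
    M x (a * b) y u v ↔ Reach [x, a, b, y] (3, u) (1, v) := (m4b (by corr) (by corr)).symm

theorem PP {x a b y : TW Q} {u v w : Port Q} (h : P x a (b * y) u v) (h' : P (x * a) b y v w) :
    P x (a * b) y u w := P13.2 ((P12.1 h).trans (P23.1 h'))

theorem MM {x a b y : TW Q} {u v w : Port Q} (h : M (x * a) b y u v) (h' : M x a (b * y) v w) :
    M x (a * b) y u w := M31.2 ((M32.1 h).trans (M21.1 h'))

theorem P.ctxL {x a y : TW Q} {u v : Port Q} (h : P x a y u v) (x' : TW Q) :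
    P (x' * x) a y u v := P23.2 (Reach.ctx' [x'] [] h rfl rfl)

theorem P.ctxR {x a y : TW Q} {u v : Port Q} (h : P x a y u v) (y' : TW Q) :
    P x a (y * y') u v := P12.2 (Reach.ctx' [] [y'] h rfl rfl)

theorem M.ctxL {x a y : TW Q} {u v : Port Q} (h : M x a y u v) (x' : TW Q) :
    M (x' * x) a y u v := M32.2 (Reach.ctx' [x'] [] h rfl rfl)

theorem M.ctxR {x a y : TW Q} {u v : Port Q} (h : M x a y u v) (y' : TW Q) :
    M x a (y * y') u v := M21.2 (Reach.ctx' [] [y'] h rfl rfl)

theorem P.congr {x a y x' a' y' : TW Q} {u v : Port Q} (h : P x a y u v) (hx : x = x')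
    (ha : a = a') (hy : y = y') : P x' a' y' u v := by subst hx ha hy; exact h

theorem M.congr {x a y x' a' y' : TW Q} {u v : Port Q} (h : M x a y u v) (hx : x = x')
    (ha : a = a') (hy : y = y') : M x' a' y' u v := by subst hx ha hy; exact h

theorem P_trans {p : TW Q} (hp : p * p = p) {u v w : Port Q} (h : P p p p u v) (h' : P p p p v w) :
    P p p p u w :=
  (PP (h.congr rfl rfl hp.symm) (h'.congr hp.symm rfl rfl)).congr rfl hp rfl

theorem M_trans {p : TW Q} (hp : p * p = p) {u v w : Port Q} (h : M p p p u v) (h' : M p p p v w) :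
    M p p p u w :=
  (MM (h.congr hp.symm rfl rfl) (h'.congr rfl rfl hp.symm)).congr rfl hp rfl

theorem step_right {w : List (TW Q)} {k : ℕ} {c : TW Q} {u v : Port Q} (hk : w[k]? = some c)
    (hc : c u v) (hu : u.2 = true) (hv : v.2 = true) : Step w (k, u) (k + 1, v) :=
  ⟨k, c, hk, hc, by simp [hu], by simp [hv]⟩

theorem pass_right {w : List (TW Q)} {s t : ℕ × Port Q} (h : Reach w s t) (k : ℕ)
    (hs : s.1 ≤ k) (ht : k < t.1) : ∃ c, Reach w s (k + 1, c) ∧ Reach w (k + 1, c) t := by
  obtain ⟨c, u, v, h1, h2, h3, h4, h5, h6⟩ := cross_right h k hs ht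
  exact ⟨v, h5.trans (step_right h1 h2 h3 h4).reach, h6⟩

theorem exists_rec {α : Type*} [Finite α] (r : α → α → Prop)
    (htr : ∀ a b c, r a b → r b c → r a c) (S : α → Prop) (hne : ∃ a, S a)
    (hS : ∀ c, S c → ∃ c', S c' ∧ r c' c) : ∃ c, S c ∧ r c c := by
  by_contra hh
  push Not at hh
  let r' : α → α → Prop := fun a b => S a ∧ r a b
  have : IsTrans α r' := ⟨fun a b c h1 h2 => ⟨h1.1, htr _ _ _ h1.2 h2.2⟩⟩
  have : Std.Irrefl r' := ⟨fun a h => hh a h.1 h.2⟩
  have wf : WellFounded r' := Finite.wellFounded_of_trans_of_irrefl r'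
  obtain ⟨m, hm, hmin⟩ := wf.has_min {a | S a} hne
  obtain ⟨c', h1, h2⟩ := hS m hm
  exact hmin c' h1 ⟨h1, h2⟩

variable [Finite Q]

/-- a crossing edge of an idempotent factors through a recurrent port -/
theorem K1 {p : TW Q} (hp : p * p = p) {u v : Port Q} (h : p u v) (hu : u.2 = true)
    (hv : v.2 = true) :
    ∃ c, P p p p c c ∧ Reach [p, p] (0, u) (1, c) ∧ Reach [p, p] (1, c) (2, v) := by
  have h0 : Reach [p, p] (0, u) (2, v) := by
    have : (p * p) u v := by rw [hp]; exact h
    simpa [mul_def, Beh, hu, hv] using this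
  obtain ⟨c, hc, hr⟩ := exists_rec (P p p p) (fun a b c => P_trans hp)
    (fun c => Reach [p, p] (0, u) (1, c) ∧ Reach [p, p] (1, c) (2, v))
    (pass_right h0 0 (by simp) (by simp)) (by
      rintro c ⟨h1, h2⟩
      have h3 : Reach [p, p, p] (0, u) (2, c) :=
        (m3a (i' := 0) (j' := 1) (by corr) (by corr)).2 (by rw [hp]; exact h1)
      obtain ⟨c', h4, h5⟩ := pass_right h3 0 (by simp) (by simp)
      have h6 : Reach [p, p, p] (2, c) (3, v) :=
        (m3a (i' := 1) (j' := 2) (by corr) (by corr)).2 (by rw [hp]; exact h2)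
      refine ⟨c', ⟨?_, ?_⟩, h5⟩
      · have := (m3b (i' := 0) (j' := 1) (by corr) (by corr)).1 h4
        rwa [hp] at this
      · have := (m3b (i' := 1) (j' := 2) (by corr) (by corr)).1 (h5.trans h6)
        rwa [hp] at this)
  exact ⟨c, hr, hc⟩

theorem K1' {p : TW Q} (hp : p * p = p) {u v : Port Q} (h : p u v) (hu : u.2 = false)
    (hv : v.2 = false) :
    ∃ c, M p p p c c ∧ Reach [p, p] (2, u) (1, c) ∧ Reach [p, p] (1, c) (0, v) := by
  obtain ⟨c, h1, h2, h3⟩ := K1 (p := mir p) (u := flip u) (v := flip v)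
    (by rw [← mir_mul, hp]) (by simpa [mir] using h) (by simp [hu]) (by simp [hv])
  refine ⟨flip c, M_iff'.2 h1, ?_, ?_⟩
  · simpa using h2.mir
  · simpa using h3.mir

theorem rec_cross {p : TW Q} (hp : p * p = p) (l r : List (TW Q)) {i j : ℕ} {u v : Port Q}
    (h : Reach (l ++ [p] ++ r) (i, u) (j, v)) (hi : i ≤ l.length) (hj : l.length < j) :
    ∃ c, P p p p c c ∧ Reach (l ++ [p, p] ++ r) (i, u) (l.length + 1, c) ∧
      Reach (l ++ [p, p] ++ r) (l.length + 1, c) (j + 1, v) := by
  obtain ⟨c0, u1, v1, h1, h2, h3, h4, h5, h6⟩ := cross_right h l.length hi hj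
  have hc0 : c0 = p := by simpa using h1.symm
  subst hc0
  obtain ⟨c, g1, g2, g3⟩ := K1 hp h2 h3 h4
  refine ⟨c, g1, ?_, ?_⟩
  · refine Reach.trans ?_ (Reach.ctx' l r g2 rfl rfl)
    exact (merge l r c0 c0 (i' := i) (j' := l.length) (by corr) (by corr)).2 (by rw [hp]; exact h5)
  · refine Reach.trans (Reach.ctx' l r g3 rfl rfl) ?_
    exact (merge l r c0 c0 (i' := l.length + 1) (j' := j) (by corr) (by corr)).2
      (by rw [hp]; exact h6)

omit [Finite Q] in
theorem below_left {p q : TW Q} (hp : p * p = p) (hq : p * q * p = q) : p * q = q := by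
  rw [← hq, ← mul_assoc, ← mul_assoc, hp]

omit [Finite Q] in
theorem below_right {p q : TW Q} (hp : p * p = p) (hq : p * q * p = q) : q * p = q := by
  conv_lhs => rw [← hq]
  rw [mul_assoc, hp, hq]

omit [Finite Q] in
theorem edge_right {p q : TW Q} (hp : p * p = p) (hq : p * q * p = q) {u v c : Port Q}
    (h1 : Reach [p, p] (0, u) (1, c)) (h2 : P p q p c c) (h3 : Reach [p, p] (1, c) (2, v))
    (hu : u.2 = true) (hv : v.2 = true) : q u v := by
  have hl := below_left hp hq
  have hr := below_right hp hq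
  have g1 : Reach [p, q, p] (0, u) (1, c) := by
    have a1 : Reach [p, p, q] (0, u) (1, c) := Reach.ctx' [] [q] h1 rfl rfl
    have a2 := (m3b (i' := 0) (j' := 1) (by corr) (by corr)).1 a1
    rw [hl] at a2
    exact Reach.ctx' [] [p] a2 rfl rfl
  have g3 : Reach [p, q, p] (2, c) (3, v) := by
    have a1 : Reach [q, p, p] (2, c) (3, v) := Reach.ctx' [q] [] h3 rfl rfl
    have a2 := (m3a (i' := 1) (j' := 2) (by corr) (by corr)).1 a1
    rw [hr] at a2
    exact Reach.ctx' [p] [] a2 rfl rfl
  have : Beh [p, q, p] u v := by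
    simpa [Beh, hu, hv] using g1.trans (Reach.trans h2 g3)
  rwa [beh_three, hq] at this

omit [Finite Q] in
theorem edge_left {p q : TW Q} (hp : p * p = p) (hq : p * q * p = q) {u v c : Port Q}
    (h1 : Reach [p, p] (2, u) (1, c)) (h2 : M p q p c c) (h3 : Reach [p, p] (1, c) (0, v))
    (hu : u.2 = false) (hv : v.2 = false) : q u v := by
  have := edge_right (p := mir p) (q := mir q) (u := flip u) (v := flip v) (c := flip c)
    (by rw [← mir_mul, hp]) (by rw [← mir_mul, ← mir_mul, ← mul_assoc, hq]) h1.mir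
    (P_of_M h2) h3.mir (by simp [hu]) (by simp [hv])
  simpa [mir] using this

omit [Finite Q] in
theorem cap_left {p : TW Q} (b : TW Q) {u v : Port Q} (h : p u v) (hu : u.2 = true)
    (hv : v.2 = false) : (p * b) u v := by
  have : Reach [p, b] (0, u) (0, v) := Step.reach ⟨0, p, rfl, h, by simp [hu], by simp [hv]⟩
  simpa [mul_def, Beh, hu, hv] using this

omit [Finite Q] in
theorem cap_right {p : TW Q} (b : TW Q) {u v : Port Q} (h : p u v) (hu : u.2 = false)
    (hv : v.2 = true) : (b * p) u v := by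
  have : Reach [b, p] (2, u) (2, v) := Step.reach ⟨1, p, rfl, h, by simp [hu], by simp [hv]⟩
  simpa [mul_def, Beh, hu, hv] using this

/-- rerouting a path through an idempotent block `p` into a block `q ∈ pTp` -/
theorem reroute {p q : TW Q} (hp : p * p = p) (hq : p * q * p = q) (l r : List (TW Q))
    {i j i' j' : ℕ} {u v : Port Q} (hi : Corr l.length 2 1 i' i) (hj : Corr l.length 2 1 j' j)
    (h : Reach (l ++ [p] ++ r) (i, u) (j, v))
    (HP : ∀ c, P p p p c c → Reach (l ++ [p, p] ++ r) (i', u) (l.length + 1, c) →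
      Reach (l ++ [p, p] ++ r) (l.length + 1, c) (j', v) → P p q p c c)
    (HM : ∀ c, M p p p c c → Reach (l ++ [p, p] ++ r) (i', u) (l.length + 1, c) →
      Reach (l ++ [p, p] ++ r) (l.length + 1, c) (j', v) → M p q p c c) :
    Reach (l ++ [q] ++ r) (i, u) (j, v) := by
  refine replace l [p] [q] r (by simp) (i, u) (j, v) i j
    (by simp only [List.length_singleton]; corr) (by simp only [List.length_singleton]; corr) h ?_
  intro u1 v1 h1 h2 h3
  rw [beh_single] at h2 ⊢
  rcases hu : u1.2 with _ | _ <;> rcases hv : v1.2 with _ | _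
  · simp only [hu, hv, List.length_singleton] at h1 h3
    obtain ⟨c, g1, g2, g3⟩ := K1' hp h2 hu hv
    refine edge_left hp hq g2 (HM c g1 ?_ ?_) g3 hu hv
    · refine Reach.trans ?_ (Reach.ctx' l r g2 rfl rfl)
      exact (merge l r p p (j' := l.length + 1) hi (by corr)).2 (by rw [hp]; simpa using h1)
    · refine Reach.trans (Reach.ctx' l r g3 rfl rfl) ?_
      exact (merge l r p p (i' := l.length) (by corr) hj).2 (by rw [hp]; simpa using h3)
  · rw [← below_right hp hq]; exact cap_right _ h2 hu hv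
  · rw [← below_left hp hq]; exact cap_left _ h2 hu hv
  · simp only [hu, hv, List.length_singleton] at h1 h3
    obtain ⟨c, g1, g2, g3⟩ := K1 hp h2 hu hv
    refine edge_right hp hq g2 (HP c g1 ?_ ?_) g3 hu hv
    · refine Reach.trans ?_ (Reach.ctx' l r g2 rfl rfl)
      exact (merge l r p p (j' := l.length) hi (by corr)).2 (by rw [hp]; simpa using h1)
    · refine Reach.trans (Reach.ctx' l r g3 rfl rfl) ?_
      exact (merge l r p p (i' := l.length + 1) (by corr) hj).2 (by rw [hp]; simpa using h3)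

/-- every recurrent class of `q ≤ p` contains a recurrent port of `p` -/
theorem K3P {p q : TW Q} (hp : p * p = p) (hqq : q * q = q) (hq : p * q * p = q) {r : Port Q}
    (h : P q q q r r) : ∃ c, P p p p c c ∧ P q q q r c ∧ P q q q c r := by
  have hl := below_left hp hq
  have hr := below_right hp hq
  have h1 : Reach ([q, q] ++ [p] ++ [q, q]) (1, r) (4, r) := by
    refine (merge3 [q] [q] q p q (i' := 1) (j' := 2) (by simp; corr) (by simp; corr)).2 ?_
    rw [hr, hqq]; exact h
  obtain ⟨c, g1, g2, g3⟩ := rec_cross hp _ _ h1 (by simp) (by simp)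
  refine ⟨c, g1, ?_, ?_⟩
  · have a1 := (merge3 [q, q, p] [] p q q (i' := 1) (j' := 3) (by simp; corr) (by simp; corr)).1 g2
    exact (P13.2 a1).congr rfl hr (by rw [hl, hqq])
  · have a1 := (merge3 [] [p, q, q] q q p (i' := 1) (j' := 3) (by simp; corr) (by simp; corr)).1 g3
    exact (P13.2 a1).congr (by rw [hqq, hr]) hl rfl

omit [Finite Q] in
/-- a `p`-class that meets a `q`-class lies inside it -/
theorem K3P' {p q : TW Q} (hp : p * p = p) (hq : p * q * p = q) {c c' : Port Q}
    (h : P q q q c c) : (P p p p c c' → P q q q c c') ∧ (P p p p c' c → P q q q c' c) := by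
  have hl := below_left hp hq
  have hr := below_right hp hq
  constructor
  · intro h'
    exact (PP (h.congr rfl rfl hl.symm)
      (((h'.ctxL (q * q)).ctxR q).congr (by rw [mul_assoc, hr]) rfl hl)).congr rfl hr rfl
  · intro h'
    exact (PP (((h'.ctxL q).ctxR (q * q)).congr hr rfl (by rw [← mul_assoc, hl]))
      (h.congr hr.symm rfl rfl)).congr rfl hl rfl

omit [Finite Q] in
theorem fixP_of {p q : TW Q} (hp : p * p = p) (hq : p * q * p = q) {c c1 c2 d : Port Q}
    (h1 : P p p p c c1) (h2 : P p q p c1 c2) (h3 : P p p p c2 d) : P p q p c d := by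
  have hl := below_left hp hq
  have hr := below_right hp hq
  have a1 : P p (p * q) p c c2 :=
    PP ((h1.ctxR q).congr rfl rfl (by rw [hl, hr])) (h2.congr hp.symm rfl rfl)
  rw [hl] at a1
  exact (PP (a1.congr rfl rfl hp.symm) ((h3.ctxL q).congr (by rw [hl, hr]) rfl rfl)).congr
    rfl hr rfl

/-- a `q`-class with a single `p`-class fixes it strictly -/
theorem K4P {p q : TW Q} (hp : p * p = p) (hqq : q * q = q) (hq : p * q * p = q) {c : Port Q}
    (h : P q q q c c)
    (H : ∀ c', P p p p c' c' → P q q q c c' → P q q q c' c → P p p p c c' ∧ P p p p c' c) :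
    P p q p c c := by
  have hl := below_left hp hq
  have hr := below_right hp hq
  obtain ⟨q', u, v, h1, h2, hu, hv, h3, h4⟩ := cross_right h 1 (by simp) (by simp)
  have hq' : q' = q := by simpa using h1.symm
  subst hq'
  have h5 : Reach ([] ++ [p] ++ [q', p]) (0, u) (3, v) := by
    have : Beh [p, q', p] u v := by rw [beh_three, hq]; exact h2
    simpa [Beh, hu, hv] using this
  obtain ⟨c1, g1, g2, g3⟩ := rec_cross hp _ _ h5 (by simp) (by simp)
  obtain ⟨c2, g4, g5, g6⟩ := rec_cross hp [p, p, q'] [] (i := 1) (j := 4) g3 (by simp) (by simp)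
  -- c1 → c2 in the context p | q | p
  have k12 : P p q' p c1 c2 := by
    have a1 := (merge3 [p] [p] p q' p (i' := 1) (j' := 2) (by simp; corr) (by simp; corr)).1 g5
    rw [hq] at a1; exact a1
  -- in the word [q, p, p, q, p, q]
  have w1 : Reach [q', p, p, q', p, q'] (1, c) (1, u) := by
    refine (merge3 [q', p] [q'] p q' p (i' := 1) (j' := 1) (by simp; corr) (by simp; corr)).2 ?_
    rw [hq]
    refine (m4b (i' := 1) (j' := 1) (by corr) (by corr)).2 ?_
    rw [hl]; exact h3
  have w2 : Reach [q', p, p, q', p, q'] (5, v) (5, c) := by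
    refine (merge3 [q', p] [q'] p q' p (i' := 3) (j' := 3) (by simp; corr) (by simp; corr)).2 ?_
    rw [hq]
    refine (m4b (i' := 2) (j' := 2) (by corr) (by corr)).2 ?_
    rw [hl]; exact h4
  have k1 : P q' q' q' c c1 := by
    have a1 : Reach [q', p, p, q', p, q'] (1, c) (2, c1) :=
      w1.trans (Reach.ctx' [q'] [q'] g2 rfl rfl)
    have a2 := (merge3 [q', p] [q'] p q' p (i' := 1) (j' := 2) (by simp; corr) (by simp; corr)).1 a1
    rw [hq] at a2
    have a3 : P q' p (q' * q') c c1 := P12.2 a2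
    exact (PP (h.congr rfl rfl hl.symm) (a3.congr hqq.symm rfl hqq)).congr rfl hr rfl
  have k2 : P q' q' q' c1 c := by
    have a1 : Reach [q', p, p, q', p, q'] (2, c1) (5, c) :=
      Reach.trans (Reach.ctx' [q'] [q'] g3 rfl rfl) w2
    have a2 := (merge3 [q', p] [q'] p q' p (i' := 2) (j' := 3) (by simp; corr) (by simp; corr)).1 a1
    rw [hq] at a2
    exact (P23.2 a2).congr hr rfl rfl
  -- c2
  have k12' : P q' q' q' c1 c2 := ((k12.ctxL q').ctxR q').congr hr rfl hl
  have k3 : P q' q' q' c c2 := P_trans hqq k1 k12'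
  have k4 : P q' q' q' c2 c := by
    have w3 : Reach [q', p, p, q', p, p, q'] (6, v) (6, c) := by
      refine (merge [q', p, p, q'] [q'] p p (i' := 5) (j' := 5) (by simp; corr)
        (by simp; corr)).2 ?_
      rw [hp]; exact w2
    have a1 : Reach [q', p, p, q', p, p, q'] (5, c2) (6, c) :=
      Reach.trans (Reach.ctx' [q'] [q'] g6 rfl rfl) w3
    have a2 := (merge3 [q', p] [p, q'] p q' p (i' := 3) (j' := 4) (by simp; corr)
      (by simp; corr)).1 a1
    rw [hq] at a2
    have a3 := (merge3 [] [p, q'] q' p q' (i' := 1) (j' := 2) (by simp; corr)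
      (by simp; corr)).1 a2
    rw [hr, hqq] at a3
    have a4 : P q' p q' c2 c := a3
    exact (PP (a4.congr rfl rfl hqq.symm) (h.congr hr.symm rfl rfl)).congr rfl hl rfl
  exact fixP_of hp hq (H c1 g1 k1 k2).1 k12 (H c2 g4 k3 k4).2

end Crest.Agent.R294
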