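import Crest.Agent.R294.Drop

/-!
The abstract lower bound: a finite semigroup mapping to two-way behaviours and onto the monoid of
binary relations, with the monotonicity property (B), needs exponentially many ports.
-/

set_option autoImplicit false

namespace Crest.Agent.R294

/-- binary relations under composition -/
def BR (α : Type*) := α → α → Prop

instance {α : Type*} : Semigroup (BR α) where
  mul R S := fun a c => ∃ b, R a b ∧ S b c
  mul_assoc R S T := by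
    funext a d
    apply propext
    constructor
    · rintro ⟨c, ⟨b, h1, h2⟩, h3⟩
      exact ⟨b, h1, c, h2, h3⟩
    · rintro ⟨b, h1, c, h2, h3⟩
      exact ⟨c, ⟨b, h1, h2⟩, h3⟩

theorem BR.mul_apply {α : Type*} (R S : BR α) (a c : α) : (R * S) a c ↔ ∃ b, R a b ∧ S b c :=
  Iff.rfl

theorem BR.ext {α : Type*} {R S : BR α} (h : ∀ a b, R a b ↔ S a b) : R = S := by
  funext a b; exact propext (h a b)

/-- the identity on `H` together with the pairs in `A` -/
def G {α : Type*} (H : Finset α) (A : Finset (α × α)) : BR α :=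
  fun a b => (a = b ∧ a ∈ H) ∨ (a, b) ∈ A

theorem G_apply {α : Type*} (H : Finset α) (A : Finset (α × α)) (a b : α) :
    G H A a b ↔ (a = b ∧ a ∈ H) ∨ (a, b) ∈ A := Iff.rfl

theorem G_kill {α : Type*} [DecidableEq α] (H : Finset α) (u : α) :
    G H ∅ * G (H.erase u) ∅ * G H ∅ = G (H.erase u) ∅ := by
  refine BR.ext (fun i j => ?_)
  simp only [BR.mul_apply, G_apply]
  grind

theorem G_rho {α : Type*} [DecidableEq α] {H : Finset α} {u s t : α} (hs : s ∈ H)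
    (ht : t ∈ H) (hsu : s ≠ u) (htu : t ≠ u) :
    G (H.erase u) ∅ * (G H {(s, u)} * G H {(u, t)}) * G (H.erase u) ∅ = G (H.erase u) {(s, t)} := by
  refine BR.ext (fun i j => ?_)
  simp only [BR.mul_apply, G_apply]
  constructor
  · grind
  · rintro (h | h)
    · refine ⟨i, ⟨i, ?_, i, ?_, ?_⟩, ?_⟩ <;> grind
    · refine ⟨t, ⟨s, ?_, u, ?_, ?_⟩, ?_⟩ <;> grind

theorem G_bip_idem {α : Type*} {K U V : Finset α} {A : Finset (α × α)}
    (hA : ∀ i j, (i, j) ∈ A → i ∈ U ∧ j ∈ V) (hUV : ∀ i, i ∈ U → i ∉ V)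
    (hV : ∀ i, i ∈ V → i ∈ K) : G K A * G K A = G K A := by
  refine BR.ext (fun i j => ?_)
  simp only [BR.mul_apply, G_apply]
  constructor
  · grind
  · intro h
    refine ⟨j, h, ?_⟩
    grind

theorem G_step {α : Type*} [DecidableEq α] {K U V : Finset α} {A : Finset (α × α)} {s t : α}
    (hA : ∀ i j, (i, j) ∈ A → i ∈ U ∧ j ∈ V) (hUV : ∀ i, i ∈ U → i ∉ V)
    (hU : ∀ i, i ∈ U → i ∈ K) (hV : ∀ i, i ∈ V → i ∈ K) (hs : s ∈ U) (ht : t ∈ V) :
    G K A * G K {(s, t)} * G K A = G K (insert (s, t) A) := by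
  refine BR.ext (fun i j => ?_)
  simp only [BR.mul_apply, G_apply]
  constructor
  · grind
  · rintro (h | h)
    · refine ⟨i, ⟨i, ?_, ?_⟩, ?_⟩ <;> grind
    · rcases Finset.mem_insert.1 h with h | h
      · refine ⟨j, ⟨i, ?_, ?_⟩, ?_⟩ <;> grind
      · refine ⟨j, ⟨j, ?_, ?_⟩, ?_⟩ <;> grind

theorem G_ctx0 {α : Type*} {H K U V : Finset α} {A : Finset (α × α)} {a b s t : α}
    (hA : ∀ i j, (i, j) ∈ A → i ∈ U ∧ j ∈ V) (hUV : ∀ i, i ∈ U → i ∉ V)
    (hU : ∀ i, i ∈ U → i ∉ H) (hV : ∀ i, i ∈ V → i ∉ H) (hK : ∀ i, i ∈ H → i ∈ K)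
    (hs : s ∈ U) (ht : t ∈ V) (hst : (s, t) ∉ A) :
    G H ∅ * G H {(a, s)} * G K A * G H {(t, b)} * G H ∅ = G H ∅ := by
  refine BR.ext (fun i j => ?_)
  simp only [BR.mul_apply, G_apply]
  constructor
  · grind
  · intro h
    refine ⟨i, ⟨i, ⟨i, ⟨i, ?_, ?_⟩, ?_⟩, ?_⟩, ?_⟩ <;> grind

theorem G_ctx1 {α : Type*} {H K U V : Finset α} {A : Finset (α × α)} {a b s t : α}
    (hA : ∀ i j, (i, j) ∈ A → i ∈ U ∧ j ∈ V) (hUV : ∀ i, i ∈ U → i ∉ V)
    (hU : ∀ i, i ∈ U → i ∉ H) (hV : ∀ i, i ∈ V → i ∉ H) (hK : ∀ i, i ∈ H → i ∈ K)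
    (hs : s ∈ U) (ht : t ∈ V) (hst : (s, t) ∈ A) (ha : a ∈ H) (hb : b ∈ H) :
    G H ∅ * G H {(a, s)} * G K A * G H {(t, b)} * G H ∅ = G H {(a, b)} := by
  refine BR.ext (fun i j => ?_)
  simp only [BR.mul_apply, G_apply]
  constructor
  · grind
  · rintro (h | h)
    · refine ⟨i, ⟨i, ⟨i, ⟨i, ?_, ?_⟩, ?_⟩, ?_⟩, ?_⟩ <;> grind
    · refine ⟨b, ⟨t, ⟨s, ⟨a, ?_, ?_⟩, ?_⟩, ?_⟩, ?_⟩ <;> grind

theorem bl {N : Type*} [Semigroup N] {p q : N} (hp : p * p = p) (hq : p * q * p = q) :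
    p * q = q := by
  rw [← hq, ← mul_assoc, ← mul_assoc, hp]

theorem br {N : Type*} [Semigroup N] {p q : N} (hp : p * p = p) (hq : p * q * p = q) :
    q * p = q := by
  conv_lhs => rw [← hq]
  rw [mul_assoc, hp, hq]

theorem below_mul {N : Type*} [Semigroup N] {p a b : N} (hp : p * p = p) (ha : p * a * p = a)
    (hb : p * b * p = b) : p * (a * b) * p = a * b := by
  rw [← mul_assoc, bl hp ha, mul_assoc, br hp hb]

theorem below_sand {N : Type*} [Semigroup N] {p : N} (hp : p * p = p) (a : N) :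
    p * (p * a * p) * p = p * a * p := by
  rw [← mul_assoc, ← mul_assoc, hp, mul_assoc (p * a), hp]

theorem exists_idem {N : Type*} [Semigroup N] [Finite N] (S : Set N) (hne : S.Nonempty)
    (hS : ∀ x ∈ S, ∀ y ∈ S, x * y ∈ S) : ∃ m ∈ S, m * m = m := by
  let _ : TopologicalSpace N := ⊥
  have : DiscreteTopology N := ⟨rfl⟩
  exact exists_idempotent_in_compact_subsemigroup (fun _ => continuous_of_discreteTopology) S hne
    (Set.toFinite S).isCompact hS

structure Sys (N Q α : Type*) [Semigroup N] where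
  τ : N → TW Q
  ψ : N → BR α
  τ_mul : ∀ a b, τ (a * b) = τ a * τ b
  ψ_mul : ∀ a b, ψ (a * b) = ψ a * ψ b
  surj : ∀ R, ∃ n, ψ n = R
  hB : ∀ e a, e * e = e → e * a * e = a → (∀ u v, τ e u v → τ a u v) → ∀ i j, ψ a i j → ψ e i j

variable {N Q α : Type*} [Semigroup N] (S : Sys N Q α)

namespace Sys

theorem τ_idem {e : N} (he : e * e = e) : S.τ e * S.τ e = S.τ e := by rw [← S.τ_mul, he]

theorem τ_below {e a : N} (he : e * a * e = a) : S.τ e * S.τ a * S.τ e = S.τ a := by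
  rw [← S.τ_mul, ← S.τ_mul, he]

def IsMin (H : Finset α) (e : N) : Prop :=
  e * e = e ∧ S.ψ e = G H ∅ ∧ ∀ f, f * f = f → e * f * e = f → S.ψ f = G H ∅ → f = e

theorem G_idem (H : Finset α) : G H ∅ * G H ∅ = G H ∅ := by
  refine BR.ext (fun a b => ?_)
  simp only [BR.mul_apply, G_apply]
  grind

variable [Finite N]

theorem exists_min (H : Finset α) : ∃ e, S.IsMin H e := by
  let r : N → N → Prop := fun f e => f * f = f ∧ e * e = e ∧ e * f * e = f ∧ f ≠ e
  have : IsTrans N r := ⟨by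
    rintro g f e ⟨h1, h2, h3, h4⟩ ⟨-, h5, h6, h7⟩
    refine ⟨h1, h5, ?_, ?_⟩
    · rw [← h3, ← mul_assoc, ← mul_assoc, bl h5 h6, mul_assoc (f * g), br h5 h6]
    · rintro rfl
      exact h7 ((bl h5 h6).symm.trans (br h2 h3))⟩
  have : Std.Irrefl r := ⟨fun a h => h.2.2.2 rfl⟩
  have wf : WellFounded r := Finite.wellFounded_of_trans_of_irrefl r
  obtain ⟨m, hm, hm'⟩ := exists_idem {n | S.ψ n = G H ∅} (S.surj _) (by
    intro x hx y hy
    simp only [Set.mem_ofPred_eq] at hx hy ⊢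
    rw [S.ψ_mul, hx, hy, G_idem])
  obtain ⟨e, he, hmin⟩ := wf.has_min {n | n * n = n ∧ S.ψ n = G H ∅} ⟨m, hm', hm⟩
  refine ⟨e, he.1, he.2, fun f h1 h2 h3 => ?_⟩
  by_contra hne
  exact hmin f ⟨h1, h3⟩ ⟨h1, he.1, h2, hne⟩

variable [Fintype Q]

theorem min_transfer {H : Finset α} {e : N} (hmin : S.IsMin H e) (x0 p y0 : N) (hp : p * p = p)
    (hψ : G H ∅ * S.ψ x0 * S.ψ p * S.ψ y0 * G H ∅ = G H ∅) (q : N) (Z : Finset (Port Q))
    (hq : p * q * p = q) (hc : Cover (S.τ p) (S.τ q) Z) :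
    ∃ z, ∃ Z' : Finset (Port Q), e * z * e = z ∧
      S.ψ z = G H ∅ * S.ψ x0 * S.ψ q * S.ψ y0 * G H ∅ ∧ Z'.card ≤ Z.card ∧
      Cover (S.τ e) (S.τ z) Z' := by
  classical
  obtain ⟨he, hψe, hm⟩ := hmin
  set g := e * (x0 * p * y0) * e with hg
  have hgb : e * g * e = g := below_sand he _
  have hψg : S.ψ g = G H ∅ := by
    rw [← hψ, hg]; simp only [S.ψ_mul, hψe, mul_assoc]
  obtain ⟨f, ⟨k, hk1, hk2, rfl⟩, hf⟩ := exists_idem
    {b | ∃ k, e * k * e = k ∧ S.ψ k = G H ∅ ∧ b = g * k} ⟨g * e, e, by rw [he, he], hψe, rfl⟩ (by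
      rintro _ ⟨k, h1, h2, rfl⟩ _ ⟨k', h1', h2', rfl⟩
      refine ⟨k * (g * k'), below_mul he h1 (below_mul he hgb h1'), ?_, by simp only [mul_assoc]⟩
      simp only [S.ψ_mul, h2, h2', hψg, G_idem])
  have hfe : g * k = e := hm _ hf (below_mul he hgb hk1) (by rw [S.ψ_mul, hψg, hk2, G_idem])
  obtain ⟨π, hπ⟩ := transfer (F := S.τ e) (x := S.τ (e * x0)) (p := S.τ p) (y := S.τ (y0 * e * k))
    (S.τ_idem he) (S.τ_idem hp) (by
      rw [← S.τ_mul, ← S.τ_mul]
      congr 1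
      conv_rhs => rw [← hfe, hg]
      simp only [mul_assoc])
  refine ⟨e * x0 * q * (y0 * e * k), Z.image π, ?_, ?_, Finset.card_image_le, ?_⟩
  · have h1 := br he hk1
    calc e * (e * x0 * q * (y0 * e * k)) * e = (e * e) * x0 * q * (y0 * e * (k * e)) := by
          simp only [mul_assoc]
      _ = _ := by rw [he, h1]
  · simp only [S.ψ_mul, hψe, hk2, mul_assoc, G_idem]
  · have := hπ (S.τ q) Z (S.τ_below hq) hc
    rwa [← S.τ_mul, ← S.τ_mul] at this

omit [Finite N] [Fintype Q] in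
theorem exists_perm [DecidableEq α] {H : Finset α} {a b s t : α} (ha : a ∈ H) (hb : b ∈ H)
    (hs : s ∈ H) (ht : t ∈ H) (hab : a ≠ b) (hst : s ≠ t) :
    ∃ g : Equiv.Perm α, g a = s ∧ g b = t ∧ ∀ i, g i ∈ H ↔ i ∈ H := by
  have hsw : ∀ x ∈ H, ∀ y ∈ H, ∀ i, Equiv.swap x y i ∈ H ↔ i ∈ H := by
    intro x hx y hy i
    rw [Equiv.swap_apply_def]
    split_ifs with h1 h2
    · simp [h1, hx, hy]
    · simp [h2, hx, hy]
    · rfl
  refine ⟨(Equiv.swap a s).trans (Equiv.swap (Equiv.swap a s b) t), ?_, ?_, ?_⟩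
  · simp only [Equiv.trans_apply, Equiv.swap_apply_left]
    refine Equiv.swap_apply_of_ne_of_ne ?_ hst
    intro h
    apply hab
    apply (Equiv.swap a s).injective
    rw [← h, Equiv.swap_apply_left]
  · simp
  · intro i
    rw [Equiv.trans_apply, hsw _ ((hsw a ha s hs b).2 hb) t ht, hsw a ha s hs]

theorem conj [DecidableEq α] {H : Finset α} {e : N} (hmin : S.IsMin H e) {a b s t : α}
    (ha : a ∈ H) (hb : b ∈ H) (hs : s ∈ H) (ht : t ∈ H) (hab : a ≠ b) (hst : s ≠ t) {z : N}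
    {Z : Finset (Port Q)} (hz : e * z * e = z) (hψ : S.ψ z = G H {(a, b)})
    (hc : Cover (S.τ e) (S.τ z) Z) :
    ∃ z', ∃ Z' : Finset (Port Q), e * z' * e = z' ∧ S.ψ z' = G H {(s, t)} ∧ Z'.card ≤ Z.card ∧
      Cover (S.τ e) (S.τ z') Z' := by
  obtain ⟨g, g1, g2, g3⟩ := exists_perm ha hb hs ht hab hst
  obtain ⟨x0, hx⟩ := S.surj (fun i j => i = g j)
  obtain ⟨y0, hy⟩ := S.surj (fun i j => j = g i)
  obtain ⟨z', Z', h1, h2, h3, h4⟩ := S.min_transfer hmin x0 e y0 hmin.1 (by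
    rw [hx, hy, hmin.2.1]
    refine BR.ext (fun i j => ?_)
    simp only [BR.mul_apply, G_apply]
    constructor
    · grind
    · intro h
      have h1 := g3 (g.symm i)
      have h2 := g.apply_symm_apply i
      refine ⟨i, ⟨g.symm i, ⟨g.symm i, ⟨i, ?_, ?_⟩, ?_⟩, ?_⟩, ?_⟩ <;> grind) z Z hz hc
  refine ⟨z', Z', h1, ?_, h3, h4⟩
  rw [h2, hx, hy, hψ]
  refine BR.ext (fun i j => ?_)
  simp only [BR.mul_apply, G_apply]
  constructor
  · grind
  · rintro (h | h)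
    · have h1 := g3 (g.symm i)
      have h2 := g.apply_symm_apply i
      refine ⟨i, ⟨g.symm i, ⟨g.symm i, ⟨i, ?_, ?_⟩, ?_⟩, ?_⟩, ?_⟩ <;> grind
    · refine ⟨t, ⟨b, ⟨a, ⟨s, ?_, ?_⟩, ?_⟩, ?_⟩, ?_⟩ <;> grind

theorem main [DecidableEq α] (n : ℕ) : ∀ (H : Finset α), 2 + 33 * n ≤ H.card → ∀ e, S.IsMin H e →
    ∀ a ∈ H, ∀ b ∈ H, a ≠ b → ∀ (z : N) (Z : Finset (Port Q)), e * z * e = z →
      S.ψ z = G H {(a, b)} → Cover (S.τ e) (S.τ z) Z → 2 ^ n ≤ Z.card := by
  classical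
  induction n with
  | zero =>
    intro H _ e hmin a _ b _ hab z Z hz hψ hc
    rw [pow_zero, Nat.one_le_iff_ne_zero]
    intro h0
    rw [Finset.card_eq_zero] at h0
    subst h0
    have := S.hB e z hmin.1 hz (cover_base (S.τ_idem hmin.1) (S.τ_below hz) hc) a b
      (by rw [hψ]; simp [G_apply])
    rw [hmin.2.1] at this
    simp [G_apply, hab] at this
  | succ n ih =>
    intro H hH e hmin a ha b hb hab z Z hz hψ hc
    have he := hmin.1
    -- spare points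
    obtain ⟨W, hW, hWc⟩ := Finset.exists_subset_card_eq (s := (H.erase a).erase b) (n := 33) (by
      rw [Finset.card_erase_of_mem (by simp [hb, hab.symm]), Finset.card_erase_of_mem ha]; omega)
    obtain ⟨u, hu⟩ : W.Nonempty := Finset.card_pos.1 (by omega)
    obtain ⟨U, hU, hUc⟩ := Finset.exists_subset_card_eq (s := W.erase u) (n := 16) (by
      rw [Finset.card_erase_of_mem hu]; omega)
    set V := W.erase u \ U with hV
    have hVc : V.card = 16 := by
      rw [hV, Finset.card_sdiff_of_subset hU, Finset.card_erase_of_mem hu]; omega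
    have hWH : ∀ i ∈ W, i ∈ H ∧ i ≠ a ∧ i ≠ b := by
      intro i hi
      have := hW hi
      simp only [Finset.mem_erase] at this
      tauto
    have hUW : ∀ s ∈ U, s ∈ W ∧ s ≠ u := by
      intro s hs
      have := hU hs
      simp only [Finset.mem_erase] at this
      tauto
    have hVW : ∀ t ∈ V, t ∈ W ∧ t ≠ u ∧ t ∉ U := by
      intro t ht
      simp only [hV, Finset.mem_sdiff, Finset.mem_erase] at ht
      tauto
    have : Nonempty N := ⟨e⟩
    have hl : ∀ s ∈ U, ∃ z', ∃ Z' : Finset (Port Q), e * z' * e = z' ∧ S.ψ z' = G H {(s, u)} ∧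
        Z'.card ≤ Z.card ∧ Cover (S.τ e) (S.τ z') Z' := fun s hs =>
      S.conj hmin ha hb (hWH s (hUW s hs).1).1 (hWH u hu).1 hab (hUW s hs).2 hz hψ hc
    have hr : ∀ t ∈ V, ∃ z', ∃ Z' : Finset (Port Q), e * z' * e = z' ∧ S.ψ z' = G H {(u, t)} ∧
        Z'.card ≤ Z.card ∧ Cover (S.τ e) (S.τ z') Z' := fun t ht =>
      S.conj hmin ha hb (hWH u hu).1 (hWH t (hVW t ht).1).1 hab (hVW t ht).2.1.symm hz hψ hc
    choose! zl Zl hl1 hl2 hl3 hl4 using hl
    choose! zr Zr hr1 hr2 hr3 hr4 using hr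
    set Z1 := U.biUnion Zl ∪ V.biUnion Zr with hZ1
    have hZ1c : Z1.card ≤ 32 * Z.card := by
      have h1 := Finset.card_biUnion_le_card_mul U Zl Z.card hl3
      have h2 := Finset.card_biUnion_le_card_mul V Zr Z.card hr3
      have h3 := Finset.card_union_le (U.biUnion Zl) (V.biUnion Zr)
      rw [hUc] at h1
      rw [hVc] at h2
      rw [hZ1]
      omega
    set H1 := H.erase u with hH1
    obtain ⟨f0, hf0⟩ := S.surj (G H1 ∅)
    obtain ⟨f, ⟨hfe, hψf⟩, hf⟩ := exists_idem {b | e * b * e = b ∧ S.ψ b = G H1 ∅}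
      ⟨e * f0 * e, below_sand he _, by
        rw [S.ψ_mul, S.ψ_mul, hmin.2.1, hf0]
        exact G_kill H u⟩ (by
      rintro x ⟨h1, h2⟩ y ⟨h3, h4⟩
      exact ⟨below_mul he h1 h3, by rw [S.ψ_mul, h2, h4, G_idem]⟩)
    obtain ⟨π, hπ⟩ := transfer (F := S.τ f) (x := S.τ f) (p := S.τ e) (y := S.τ f)
      (S.τ_idem hf) (S.τ_idem he) (by rw [← S.τ_mul, ← S.τ_mul, br he hfe, hf])
    set Z0 := Z1.image π with hZ0
    have hZ0c : Z0.card ≤ 32 * Z.card := Finset.card_image_le.trans hZ1c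
    let Good : N → Prop := fun b => f * b * f = b ∧ Cover (S.τ f) (S.τ b) Z0
    have good_mul : ∀ x y, Good x → Good y → Good (x * y) := by
      rintro x y ⟨h1, h2⟩ ⟨h3, h4⟩
      refine ⟨below_mul hf h1 h3, ?_⟩
      rw [S.τ_mul]
      exact Cover.mul (S.τ_idem hf) (S.τ_below h1) (S.τ_below h3) h2 h4
    have hρ : ∀ s ∈ U, ∀ t ∈ V, ∃ ρ, Good ρ ∧ S.ψ ρ = G H1 {(s, t)} := by
      intro s hs t ht
      refine ⟨f * (zl s * zr t) * f, ⟨below_sand hf _, ?_⟩, ?_⟩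
      · rw [S.τ_mul, S.τ_mul]
        refine hπ _ Z1 (S.τ_below (below_mul he (hl1 s hs) (hr1 t ht))) ?_
        rw [S.τ_mul]
        refine Cover.mul (S.τ_idem he) (S.τ_below (hl1 s hs)) (S.τ_below (hr1 t ht))
          ((hl4 s hs).mono ?_) ((hr4 t ht).mono ?_)
        · exact (Finset.subset_biUnion_of_mem Zl hs).trans Finset.subset_union_left
        · exact (Finset.subset_biUnion_of_mem Zr ht).trans Finset.subset_union_right
      · rw [S.ψ_mul, S.ψ_mul, S.ψ_mul, hψf, hl2 s hs, hr2 t ht]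
        have h1 := hUW s hs
        have h2 := hVW t ht
        have h3 := hWH s h1.1
        have h4 := hWH t h2.1
        exact G_rho h3.1 h4.1 h1.2 h2.2.1
    let Safe : Bool → Port Q → Prop := fun σ r =>
      R σ (S.τ f) (S.τ f) (S.τ f) r r ∧ ∀ z ∈ Z0, ¬ Sim (S.τ f) r z
    let Φ : N → ℕ := fun p =>
      (Bad (Safe true) true (S.τ p)).card + (Bad (Safe false) false (S.τ p)).card
    have hΦf : Φ f ≤ 64 * Z.card := by
      have h1 := bad_init (σ := true) (S.τ_idem hf) Z0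
      have h2 := bad_init (σ := false) (S.τ_idem hf) Z0
      have : Φ f ≤ Z0.card + Z0.card := Nat.add_le_add h1 h2
      omega
    set H' := H \ W with hH'
    have hH'c : 2 + 33 * n ≤ H'.card := by
      rw [hH', Finset.card_sdiff_of_subset (fun i hi => (hWH i hi).1)]; omega
    obtain ⟨F, hF⟩ := S.exists_min H'
    have ha' : a ∈ H' := Finset.mem_sdiff.2 ⟨ha, fun h => (hWH a h).2.1 rfl⟩
    have hb' : b ∈ H' := Finset.mem_sdiff.2 ⟨hb, fun h => (hWH b h).2.2 rfl⟩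
    have hUV : ∀ i, i ∈ U → i ∉ V := fun i h1 h2 => (hVW i h2).2.2 h1
    have hUK : ∀ i, i ∈ U → i ∈ H1 := fun i h =>
      Finset.mem_erase.2 ⟨(hUW i h).2, (hWH i (hUW i h).1).1⟩
    have hVK : ∀ i, i ∈ V → i ∈ H1 := fun i h =>
      Finset.mem_erase.2 ⟨(hVW i h).2.1, (hWH i (hVW i h).1).1⟩
    have hUH : ∀ i, i ∈ U → i ∉ H' := fun i h h' => (Finset.mem_sdiff.1 h').2 (hUW i h).1
    have hVH : ∀ i, i ∈ V → i ∉ H' := fun i h h' => (Finset.mem_sdiff.1 h').2 (hVW i h).1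
    have hHK : ∀ i, i ∈ H' → i ∈ H1 := fun i h =>
      Finset.mem_erase.2 ⟨fun h' => (Finset.mem_sdiff.1 h).2 (h' ▸ hu), (Finset.mem_sdiff.1 h).1⟩
    have chain : ∀ A : Finset (α × α), A ⊆ U ×ˢ V → ∃ p, Good p ∧ p * p = p ∧ S.ψ p = G H1 A ∧
        A.card * 2 ^ n + 2 * Φ p ≤ 2 * Φ f := by
      intro A
      induction A using Finset.induction_on with
      | empty =>
        intro _
        exact ⟨f, ⟨by rw [hf, hf], fun σ r hr _ => hr⟩, hf, hψf, by simp⟩
      | insert st A hst ihA =>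
        intro hA
        obtain ⟨s, t⟩ := st
        have hA' : A ⊆ U ×ˢ V := (Finset.subset_insert _ _).trans hA
        have hAm : ∀ i j, (i, j) ∈ A → i ∈ U ∧ j ∈ V := fun i j h => by simpa using hA' h
        obtain ⟨hs, ht⟩ : s ∈ U ∧ t ∈ V := by simpa using hA (Finset.mem_insert_self _ _)
        obtain ⟨p, hpg, hp, hψp, hΦ⟩ := ihA hA'
        obtain ⟨ρ, hρg, hψρ⟩ := hρ s hs t ht
        have hAm' : ∀ i j, (i, j) ∈ insert (s, t) A → i ∈ U ∧ j ∈ V :=
          fun i j h => by simpa using hA h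
        obtain ⟨q, ⟨hqg, hqp, hψq⟩, hq⟩ := exists_idem
          {b | Good b ∧ p * b * p = b ∧ S.ψ b = G H1 (insert (s, t) A)}
          ⟨p * ρ * p, good_mul _ _ (good_mul _ _ hpg hρg) hpg, below_sand hp _, by
            rw [S.ψ_mul, S.ψ_mul, hψp, hψρ]
            exact G_step hAm hUV hUK hVK hs ht⟩ (by
          rintro x ⟨h1, h2, h3⟩ y ⟨h4, h5, h6⟩
          refine ⟨good_mul _ _ h1 h4, below_mul hp h2 h5, ?_⟩
          rw [S.ψ_mul, h3, h6]
          exact G_bip_idem hAm' hUV hVK)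
        have hsafe : ∀ σ r, Safe σ r → R σ (S.τ p) (S.τ q) (S.τ p) r r := fun σ r h =>
          fix_ctx (S.τ_idem hf) (S.τ_below hpg.1) (hqg.2 σ r h.1 h.2)
        obtain ⟨Zt, ht1, ht2⟩ := drop (Safe := Safe true) (σ := true) (S.τ_idem hp) (S.τ_idem hq)
          (S.τ_below hqp) (hsafe true)
        obtain ⟨Zf, hf1, hf2⟩ := drop (Safe := Safe false) (σ := false) (S.τ_idem hp)
          (S.τ_idem hq) (S.τ_below hqp) (hsafe false)
        have hcov : Cover (S.τ p) (S.τ q) (Zt ∪ Zf) := by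
          intro σ r h1 h2
          cases σ
          · exact hf1 r h1 (fun z hz => h2 z (Finset.mem_union_right _ hz))
          · exact ht1 r h1 (fun z hz => h2 z (Finset.mem_union_left _ hz))
        obtain ⟨x0, hx⟩ := S.surj (G H' {(a, s)})
        obtain ⟨y0, hy⟩ := S.surj (G H' {(t, b)})
        obtain ⟨z', Z', k1, k2, k3, k4⟩ := S.min_transfer hF x0 p y0 hp (by
          rw [hx, hy, hψp]
          exact G_ctx0 hAm hUV hUH hVH hHK hs ht hst) q _ hqp hcov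
        have k5 := ih H' hH'c F hF a ha' b hb' hab z' Z' k1 (by
          rw [k2, hx, hy, hψq]
          exact G_ctx1 hAm' hUV hUH hVH hHK hs ht (Finset.mem_insert_self _ _) ha' hb') k4
        refine ⟨q, hqg, hq, hψq, ?_⟩
        have k6 := Finset.card_union_le Zt Zf
        rw [Finset.card_insert_of_notMem hst, add_mul]
        simp only [Φ] at hΦ ⊢
        omega
    obtain ⟨p, -, -, -, hfin⟩ := chain (U ×ˢ V) subset_rfl
    rw [Finset.card_product, hUc, hVc] at hfin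
    rw [pow_succ]
    omega

include S in
theorem core [Fintype α] (h2 : 2 ≤ Fintype.card α) :
    2 ^ ((Fintype.card α - 2) / 33) ≤ 2 * Fintype.card Q := by
  classical
  obtain ⟨e, he⟩ := S.exists_min Finset.univ
  obtain ⟨a, b, hab⟩ := Fintype.exists_pair_of_one_lt_card (α := α) (by omega)
  obtain ⟨z0, hz0⟩ := S.surj (G Finset.univ {(a, b)})
  have := S.main ((Fintype.card α - 2) / 33) Finset.univ (by rw [Finset.card_univ]; omega) e he
    a (Finset.mem_univ _) b (Finset.mem_univ _) hab (e * z0 * e) Finset.univ (below_sand he.1 _)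
    (by
      rw [S.ψ_mul, S.ψ_mul, he.2.1, hz0]
      refine BR.ext (fun i j => ?_)
      simp only [BR.mul_apply, G_apply]
      constructor
      · grind
      · intro h
        refine ⟨j, ⟨i, ?_, h⟩, ?_⟩ <;> simp) (cover_univ _ _)
  simpa [mul_comm] using this

end Sys

end Crest.Agent.R294
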