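import Crest.Agent.R294.Calc

/-!
Signed recurrent classes, covers of the non-fixed classes, the transfer lemma and the drop lemma.
-/

set_option autoImplicit false

namespace Crest.Agent.R294

variable {Q : Type*}

def R (σ : Bool) (x a y : TW Q) (u v : Port Q) : Prop :=
  match σ with
  | true => P x a y u v
  | false => M x a y u v

def Eqv (σ : Bool) (e : TW Q) (r r' : Port Q) : Prop := R σ e e e r r' ∧ R σ e e e r' r

def Sim (e : TW Q) (r r' : Port Q) : Prop := ∃ τ, Eqv τ e r r'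

def Cover (e a : TW Q) (Z : Finset (Port Q)) : Prop :=
  ∀ σ r, R σ e e e r r → (∀ z ∈ Z, ¬ Sim e r z) → R σ e a e r r

theorem R_trans {σ : Bool} {p : TW Q} (hp : p * p = p) {u v w : Port Q} (h : R σ p p p u v)
    (h' : R σ p p p v w) : R σ p p p u w := by
  cases σ
  · exact M_trans hp h h'
  · exact P_trans hp h h'

theorem Eqv.symm {σ : Bool} {e : TW Q} {r r' : Port Q} (h : Eqv σ e r r') : Eqv σ e r' r :=
  ⟨h.2, h.1⟩

theorem Eqv.trans {σ : Bool} {e : TW Q} (he : e * e = e) {r r' r'' : Port Q} (h : Eqv σ e r r')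
    (h' : Eqv σ e r' r'') : Eqv σ e r r'' :=
  ⟨R_trans he h.1 h'.1, R_trans he h'.2 h.2⟩

theorem Eqv.rec_left {σ : Bool} {e : TW Q} (he : e * e = e) {r r' : Port Q} (h : Eqv σ e r r') :
    R σ e e e r r := R_trans he h.1 h.2

theorem Sim.symm {e : TW Q} {r r' : Port Q} (h : Sim e r r') : Sim e r' r := by
  obtain ⟨τ, h⟩ := h
  exact ⟨τ, h.symm⟩

/-- reachability forgetting the level -/
def Any (e : TW Q) (r r' : Port Q) : Prop :=
  ∃ i j, (i = 1 ∨ i = 2) ∧ (j = 1 ∨ j = 2) ∧ Reach [e, e, e] (i, r) (j, r')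

theorem any_of_R {σ : Bool} {e : TW Q} {r r' : Port Q} (h : R σ e e e r r') : Any e r r' := by
  cases σ
  · exact ⟨2, 1, by simp, by simp, h⟩
  · exact ⟨1, 2, by simp, by simp, h⟩

theorem Any.mir {e : TW Q} {r r' : Port Q} (h : Any e r r') : Any (mir e) (flip r) (flip r') := by
  obtain ⟨i, j, hi, hj, h⟩ := h
  exact ⟨3 - i, 3 - j, by omega, by omega, h.mir⟩

theorem P_of_any {e : TW Q} (he : e * e = e) {r r' : Port Q} (h : P e e e r r) :
    (Any e r r' → P e e e r r') ∧ (Any e r' r → P e e e r' r) := by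
  have h13 : Reach [e, e, e, e] (1, r) (3, r) := P13.1 (h.congr rfl he.symm rfl)
  constructor
  · rintro ⟨i, j, rfl | rfl, rfl | rfl, h'⟩
    · have a1 : Reach [e, e, e, e] (2, r) (2, r') := Reach.ctx' [e] [] h' rfl rfl
      have a2 : Reach [e, e, e, e] (1, r) (2, r) := P12.1 (h.congr rfl rfl he.symm)
      exact (P12.2 (a2.trans a1)).congr rfl rfl he
    · exact h'
    · have a1 : Reach [e, e, e, e] (3, r) (2, r') := M32.1 (M.congr h' he.symm rfl rfl)
      exact (P12.2 (h13.trans a1)).congr rfl rfl he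
    · exact Reach.trans h h'
  · rintro ⟨i, j, rfl | rfl, rfl | rfl, h'⟩
    · exact Reach.trans h' h
    · exact h'
    · have a1 : Reach [e, e, e, e] (2, r') (1, r) := M21.1 (M.congr h' rfl rfl he.symm)
      exact (P23.2 (a1.trans h13)).congr he rfl rfl
    · have a1 : Reach [e, e, e, e] (2, r') (2, r) := Reach.ctx' [] [e] h' rfl rfl
      have a2 : Reach [e, e, e, e] (2, r) (3, r) := P23.1 (h.congr he.symm rfl rfl)
      exact (P23.2 (a1.trans a2)).congr he rfl rfl

theorem eqv_of_any {σ : Bool} {e : TW Q} (he : e * e = e) {r r' : Port Q} (h : R σ e e e r r)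
    (h1 : Any e r r') (h2 : Any e r' r) : Eqv σ e r r' := by
  cases σ
  · have := P_of_any (e := mir e) (r' := flip r') (by rw [← mir_mul, he]) (P_of_M h)
    exact ⟨M_iff.2 (this.1 h1.mir), M_iff.2 (this.2 h2.mir)⟩
  · exact ⟨(P_of_any he h).1 h1, (P_of_any he h).2 h2⟩

theorem eqv_of_sim {σ : Bool} {e : TW Q} (he : e * e = e) {r r' : Port Q} (h : R σ e e e r r)
    (h1 : Sim e r r') : Eqv σ e r r' := by
  obtain ⟨τ, h1⟩ := h1
  exact eqv_of_any he h (any_of_R h1.1) (any_of_R h1.2)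

theorem Sim.trans {e : TW Q} (he : e * e = e) {r r' r'' : Port Q} (h : Sim e r r')
    (h' : Sim e r' r'') : Sim e r r'' := by
  obtain ⟨τ, h⟩ := h
  exact ⟨τ, h.trans he (eqv_of_sim he (h.symm.rec_left he) h')⟩

theorem fix_mul {σ : Bool} {e a b : TW Q} (he : e * e = e) (ha : e * a * e = a)
    (hb : e * b * e = b) {r : Port Q} (h1 : R σ e a e r r) (h2 : R σ e b e r r) :
    R σ e (a * b) e r r := by
  have hal := below_left he ha
  have har := below_right he ha
  have hbl := below_left he hb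
  have hbr := below_right he hb
  cases σ
  · exact MM ((M.ctxL h2 a).congr (by rw [har, hal]) rfl rfl)
      ((M.ctxR h1 b).congr rfl rfl (by rw [hbl, hbr]))
  · exact PP ((P.ctxR h1 b).congr rfl rfl (by rw [hbl, hbr]))
      ((P.ctxL h2 a).congr (by rw [har, hal]) rfl rfl)

theorem fix_ctx {σ : Bool} {f p b : TW Q} (hf : f * f = f) (hp : f * p * f = p) {r r' : Port Q}
    (h : R σ f b f r r') : R σ p b p r r' := by
  have hl := below_left hf hp
  have hr := below_right hf hp
  cases σ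
  · exact ((M.ctxL h p).ctxR p).congr hr rfl hl
  · exact ((P.ctxL h p).ctxR p).congr hr rfl hl

theorem fix_of_eqv {σ : Bool} {p q : TW Q} (hp : p * p = p) (hq : p * q * p = q) {c c' : Port Q}
    (h : Eqv σ p c c') (h' : R σ p q p c' c') : R σ p q p c c := by
  cases σ
  · exact M_iff.2 (fixP_of (p := mir p) (q := mir q) (by rw [← mir_mul, hp])
      (by rw [← mir_mul, ← mir_mul, ← mul_assoc, hq]) (P_of_M h.1) (P_of_M h') (P_of_M h.2))
  · exact fixP_of hp hq h.1 h' h.2

theorem K3' {σ : Bool} {p q : TW Q} (hp : p * p = p) (hq : p * q * p = q) {c c' : Port Q}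
    (h : R σ q q q c c) (h' : Eqv σ p c c') : Eqv σ q c c' := by
  cases σ
  · have := K3P' (p := mir p) (q := mir q) (c' := flip c') (by rw [← mir_mul, hp])
      (by rw [← mir_mul, ← mir_mul, ← mul_assoc, hq]) (P_of_M h)
    exact ⟨M_iff.2 (this.1 (P_of_M h'.1)), M_iff.2 (this.2 (P_of_M h'.2))⟩
  · exact ⟨(K3P' hp hq h).1 h'.1, (K3P' hp hq h).2 h'.2⟩

theorem Cover.mono {e a : TW Q} {Z Z' : Finset (Port Q)} (h : Cover e a Z) (hZ : Z ⊆ Z') :
    Cover e a Z' := fun σ r hr H => h σ r hr (fun z hz => H z (hZ hz))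

theorem Cover.mul {e a b : TW Q} (he : e * e = e) (ha : e * a * e = a) (hb : e * b * e = b)
    {Z : Finset (Port Q)} (h1 : Cover e a Z) (h2 : Cover e b Z) : Cover e (a * b) Z :=
  fun σ r hr H => fix_mul he ha hb (h1 σ r hr H) (h2 σ r hr H)

theorem cover_univ [Fintype Q] (e a : TW Q) : Cover e a Finset.univ :=
  fun σ r hr H => absurd ⟨σ, hr, hr⟩ (H r (Finset.mem_univ _))

variable [Finite Q]

theorem K3 {σ : Bool} {p q : TW Q} (hp : p * p = p) (hqq : q * q = q) (hq : p * q * p = q)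
    {r : Port Q} (h : R σ q q q r r) : ∃ c, R σ p p p c c ∧ Eqv σ q r c := by
  cases σ
  · obtain ⟨c, h1, h2, h3⟩ := K3P (p := mir p) (q := mir q) (by rw [← mir_mul, hp])
      (by rw [← mir_mul, hqq]) (by rw [← mir_mul, ← mir_mul, ← mul_assoc, hq]) (P_of_M h)
    exact ⟨flip c, M_iff'.2 h1, M_iff.2 (by simpa using h2), M_iff.2 (by simpa using h3)⟩
  · obtain ⟨c, h1, h2, h3⟩ := K3P hp hqq hq h
    exact ⟨c, h1, h2, h3⟩

theorem K4 {σ : Bool} {p q : TW Q} (hp : p * p = p) (hqq : q * q = q) (hq : p * q * p = q)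
    {c : Port Q} (h : R σ q q q c c)
    (H : ∀ c', R σ p p p c' c' → Eqv σ q c c' → Eqv σ p c c') : R σ p q p c c := by
  cases σ
  · refine M_iff.2 (K4P (p := mir p) (q := mir q) (by rw [← mir_mul, hp])
      (by rw [← mir_mul, hqq]) (by rw [← mir_mul, ← mir_mul, ← mul_assoc, hq]) (P_of_M h) ?_)
    intro c' h1 h2 h3
    have := H (flip c') (M_iff'.2 h1) ⟨M_iff.2 (by simpa using h2), M_iff.2 (by simpa using h3)⟩
    exact ⟨by simpa using P_of_M this.1, by simpa using P_of_M this.2⟩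
  · exact K4P hp hqq hq h (fun c' h1 h2 h3 => H c' h1 ⟨h2, h3⟩)

theorem cover_base {e a : TW Q} (he : e * e = e) (ha : e * a * e = a) (h : Cover e a ∅)
    (u v : Port Q) (huv : e u v) : a u v := by
  have h1 : Beh [e] u v := by rw [beh_single]; exact huv
  have h2 := reroute he ha [] [] (i' := if u.2 then 0 else 2) (j' := if v.2 then 2 else 0)
    (by unfold Corr; split_ifs <;> simp) (by unfold Corr; split_ifs <;> simp) h1
    (fun c hc _ _ => h true c hc (by simp)) (fun c hc _ _ => h false c hc (by simp))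
  rw [← beh_single a]
  exact h2

omit [Finite Q] in
theorem link_any {F x p y : TW Q} (hp : p * p = p) (hF : x * p * y = F) {r c c' r' : Port Q}
    {i j : ℕ} (hi : i = 1 ∨ i = 3) (hj : j = 1 ∨ j = 3)
    (h1 : Reach [F, x * p, p * y, F] (i, r) (2, c)) (h2 : Sim p c c')
    (h3 : Reach [F, x * p, p * y, F] (2, c') (j, r')) : Any F r r' := by
  have e1 : x * p * p = x * p := by rw [mul_assoc, hp]
  have e2 : p * (p * y) = p * y := by rw [← mul_assoc, hp]
  have e3 : x * p * p * (p * y) = F := by rw [e1, mul_assoc, e2, ← mul_assoc, hF]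
  have key : Reach [F, x * p, p, p * y, F] (if i = 1 then 1 else 4, r)
      (if j = 1 then 1 else 4, r') := by
    obtain ⟨τ, h2, -⟩ := h2
    have A : ∀ {i j i' j' : ℕ} {u v : Port Q}, Corr 1 2 1 i i' → Corr 1 2 1 j j' →
        Reach [F, x * p, p * y, F] (i', u) (j', v) → Reach [F, x * p, p, p * y, F] (i, u) (j, v) := by
      intro i j i' j' u v hi hj h
      refine (merge [F] [p * y, F] (x * p) p hi hj).2 ?_
      rw [e1]; exact h
    have B : ∀ {i j i' j' : ℕ} {u v : Port Q}, Corr 2 2 1 i i' → Corr 2 2 1 j j' →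
        Reach [F, x * p, p * y, F] (i', u) (j', v) → Reach [F, x * p, p, p * y, F] (i, u) (j, v) := by
      intro i j i' j' u v hi hj h
      refine (merge [F, x * p] [F] p (p * y) hi hj).2 ?_
      rw [e2]; exact h
    cases τ
    · have a2 : Reach [F, x * p, p, p * y, F] (3, c) (2, c') :=
        Reach.ctx' [F] [F] ((M.ctxL h2 x).ctxR y) rfl rfl
      refine Reach.trans (A ?_ (by corr) h1) (a2.trans (B (by corr) ?_ h3))
      · unfold Corr; split_ifs <;> omega
      · unfold Corr; split_ifs <;> omega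
    · have a2 : Reach [F, x * p, p, p * y, F] (2, c) (3, c') :=
        Reach.ctx' [F] [F] ((P.ctxL h2 x).ctxR y) rfl rfl
      refine Reach.trans (B ?_ (by corr) h1) (a2.trans (A (by corr) ?_ h3))
      · unfold Corr; split_ifs <;> omega
      · unfold Corr; split_ifs <;> omega
  refine ⟨if i = 1 then 1 else 2, if j = 1 then 1 else 2, by split_ifs <;> simp,
    by split_ifs <;> simp, ?_⟩
  have := (merge3 [F] [F] (x * p) p (p * y) (i' := if i = 1 then 1 else 2)
    (j' := if j = 1 then 1 else 2) (by unfold Corr; split_ifs <;> simp)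
    (by unfold Corr; split_ifs <;> simp)).1 key
  rw [e3] at this
  exact this

/-- the transfer lemma -/
theorem transfer [DecidableEq Q] {F x p y : TW Q} (hFF : F * F = F) (hp : p * p = p)
    (hF : x * p * y = F) :
    ∃ π : Port Q → Port Q, ∀ q Z, p * q * p = q → Cover p q Z →
      Cover F (x * q * y) (Z.image π) := by
  classical
  let Link : Port Q → Port Q → Prop := fun r c => (∃ σ, R σ F F F r r) ∧
    (∃ i, (i = 1 ∨ i = 3) ∧ Reach [F, x * p, p * y, F] (i, r) (2, c)) ∧
    (∃ j, (j = 1 ∨ j = 3) ∧ Reach [F, x * p, p * y, F] (2, c) (j, r))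
  have key : ∀ r c r' c', Link r c → Link r' c' → Sim p c c' → Sim F r r' := by
    rintro r c r' c' ⟨⟨σ, h1⟩, ⟨i, hi, h2⟩, ⟨j, hj, h3⟩⟩ ⟨-, ⟨i', hi', h2'⟩, ⟨j', hj', h3'⟩⟩ h
    exact ⟨σ, eqv_of_any hFF h1 (link_any hp hF hi hj' h2 h h3')
      (link_any hp hF hi' hj h2' h.symm h3)⟩
  refine ⟨fun z => if h : ∃ r c, Link r c ∧ Sim p c z then h.choose else z, ?_⟩
  intro q Z hq hc σ r hr H
  have fixc : ∀ τ c, R τ p p p c c → Link r c → R τ p q p c c := by
    intro τ c h1 h2
    refine hc τ c h1 (fun z hz hs => ?_)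
    have hex : ∃ r c, Link r c ∧ Sim p c z := ⟨r, c, h2, hs⟩
    refine H _ (Finset.mem_image_of_mem _ hz) ?_
    simp only [dif_pos hex]
    obtain ⟨c', g1, g2⟩ := hex.choose_spec
    exact key _ _ _ _ h2 g1 (hs.trans hp g2.symm)
  have W : ∀ {i j i' j' : ℕ} {u v : Port Q}, Corr 1 4 2 i i' ∨ (i = 3 ∧ i' = 2) →
      Corr 1 4 2 j j' ∨ (j = 3 ∧ j' = 2) →
      Reach ([F, x] ++ [p, p] ++ [y, F]) (i, u) (j, v) →
      Reach [F, x * p, p * y, F] (i', u) (j', v) := by
    intro i j i' j' u v hi hj h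
    have a1 := (merge [F, x, p] [F] p y (i' := if i ≤ 3 then i else i - 1)
      (j' := if j ≤ 3 then j else j - 1) (by unfold Corr at *; split_ifs <;> simp <;> omega)
      (by unfold Corr at *; split_ifs <;> simp <;> omega)).1 h
    exact (merge [F] [p * y, F] x p (by unfold Corr at *; split_ifs <;> simp <;> omega)
      (by unfold Corr at *; split_ifs <;> simp <;> omega)).1 a1
  cases σ
  · have h1 : Reach ([F, x] ++ [p] ++ [y, F]) (4, r) (1, r) := by
      refine (merge3 [F] [F] x p y (i' := 2) (j' := 1) (by simp; corr) (by simp; corr)).2 ?_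
      rw [hF]; exact hr
    have h2 := reroute hp hq [F, x] [y, F] (i' := 5) (j' := 1) (by simp; corr) (by simp; corr) h1
      (fun c hc g1 g2 => fixc true c hc ⟨⟨false, hr⟩, ⟨3, by simp, W (by corr) (by simp) g1⟩,
        ⟨1, by simp, W (by simp) (by corr) g2⟩⟩)
      (fun c hc g1 g2 => fixc false c hc ⟨⟨false, hr⟩, ⟨3, by simp, W (by corr) (by simp) g1⟩,
        ⟨1, by simp, W (by simp) (by corr) g2⟩⟩)
    exact (merge3 [F] [F] x q y (i' := 2) (j' := 1) (by simp; corr) (by simp; corr)).1 h2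
  · have h1 : Reach ([F, x] ++ [p] ++ [y, F]) (1, r) (4, r) := by
      refine (merge3 [F] [F] x p y (i' := 1) (j' := 2) (by simp; corr) (by simp; corr)).2 ?_
      rw [hF]; exact hr
    have h2 := reroute hp hq [F, x] [y, F] (i' := 1) (j' := 5) (by simp; corr) (by simp; corr) h1
      (fun c hc g1 g2 => fixc true c hc ⟨⟨true, hr⟩, ⟨1, by simp, W (by corr) (by simp) g1⟩,
        ⟨3, by simp, W (by simp) (by corr) g2⟩⟩)
      (fun c hc g1 g2 => fixc false c hc ⟨⟨true, hr⟩, ⟨1, by simp, W (by corr) (by simp) g1⟩,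
        ⟨3, by simp, W (by simp) (by corr) g2⟩⟩)
    exact (merge3 [F] [F] x q y (i' := 1) (j' := 2) (by simp; corr) (by simp; corr)).1 h2

end Crest.Agent.R294
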