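import Crest.Agent.R294.Cover

/-!
The potential (number of signed classes without a safe port) and the drop lemma.
-/

set_option autoImplicit false

namespace Crest.Agent.R294

open Classical in
theorem sum_fib_le {α β : Type*} (A : Finset α) (B : Finset β) (φ : α → β → Prop)
    (func : ∀ a ∈ A, ∀ b ∈ B, ∀ b' ∈ B, φ a b → φ a b' → b = b') :
    ∑ b ∈ B, (A.filter (fun a => φ a b)).card ≤ A.card := by
  have h := Finset.sum_card_bipartiteAbove_eq_sum_card_bipartiteBelow (s := A) (t := B) φ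
  have h2 : ∑ b ∈ B, (A.filter (fun a => φ a b)).card = ∑ b ∈ B, (A.bipartiteBelow φ b).card := rfl
  rw [h2, ← h]
  calc ∑ a ∈ A, (B.bipartiteAbove φ a).card ≤ ∑ a ∈ A, 1 := by
        refine Finset.sum_le_sum (fun a ha => ?_)
        rw [Finset.card_le_one]
        intro b hb b' hb'
        rw [Finset.mem_bipartiteAbove] at hb hb'
        exact func a ha b hb.1 b' hb'.1 hb.2 hb'.2
    _ = A.card := by simp

open Classical in
theorem count_single {α β : Type*} (A : Finset α) (B : Finset β) (φ : α → β → Prop)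
    (func : ∀ a ∈ A, ∀ b ∈ B, ∀ b' ∈ B, φ a b → φ a b' → b = b')
    (surj : ∀ b ∈ B, ∃ a ∈ A, φ a b) :
    (A.filter (fun a => ¬ ∃ b ∈ B, φ a b ∧ ∀ a' ∈ A, φ a' b → a' = a)).card + 2 * B.card
      ≤ 2 * A.card := by
  set S := A.filter (fun a => ∃ b ∈ B, φ a b ∧ ∀ a' ∈ A, φ a' b → a' = a) with hS
  have h1 := sum_fib_le A B φ func
  have h2 := sum_fib_le S B φ (fun a ha => func a (Finset.mem_filter.1 ha).1)
  have h3 : ∀ b ∈ B, 2 ≤ (A.filter (fun a => φ a b)).card + (S.filter (fun a => φ a b)).card := by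
    intro b hb
    obtain ⟨a, ha, hab⟩ := surj b hb
    by_cases hu : ∀ a' ∈ A, φ a' b → a' = a
    · have g1 : 0 < (A.filter (fun a => φ a b)).card :=
        Finset.card_pos.2 ⟨a, Finset.mem_filter.2 ⟨ha, hab⟩⟩
      have g2 : 0 < (S.filter (fun a => φ a b)).card :=
        Finset.card_pos.2 ⟨a, Finset.mem_filter.2 ⟨Finset.mem_filter.2 ⟨ha, b, hb, hab, hu⟩, hab⟩⟩
      omega
    · push Not at hu
      obtain ⟨a', ha', h1, h2⟩ := hu
      have : 1 < (A.filter (fun a => φ a b)).card :=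
        Finset.one_lt_card.2 ⟨a', Finset.mem_filter.2 ⟨ha', h1⟩, a, Finset.mem_filter.2 ⟨ha, hab⟩, h2⟩
      omega
  have h4 := Finset.sum_le_sum h3
  rw [Finset.sum_add_distrib] at h4
  simp only [Finset.sum_const, smul_eq_mul] at h4
  have h5 := Finset.card_filter_add_card_filter_not (s := A)
    (fun a => ∃ b ∈ B, φ a b ∧ ∀ a' ∈ A, φ a' b → a' = a)
  rw [← hS] at h5
  omega

variable {Q : Type*} [Fintype Q]

def cls (σ : Bool) (p : TW Q) (r : Port Q) : Set (Port Q) := {r' | Eqv σ p r r'}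

open Classical in
noncomputable def Bad (Safe : Port Q → Prop) (σ : Bool) (p : TW Q) : Finset (Set (Port Q)) :=
  (Finset.univ.filter
    (fun r => R σ p p p r r ∧ ∀ r', Eqv σ p r r' → ¬ Safe r')).image (cls σ p)

theorem mem_Bad {Safe : Port Q → Prop} {σ : Bool} {p : TW Q} {C : Set (Port Q)} :
    C ∈ Bad Safe σ p ↔
      ∃ r, R σ p p p r r ∧ (∀ r', Eqv σ p r r' → ¬ Safe r') ∧ cls σ p r = C := by
  simp [Bad, and_assoc]

omit [Fintype Q] in
theorem cls_eq {σ : Bool} {p : TW Q} (hp : p * p = p) {r r' : Port Q} (h : Eqv σ p r r') :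
    cls σ p r = cls σ p r' := by
  ext z
  exact ⟨fun hz => h.symm.trans hp hz, fun hz => h.trans hp hz⟩

theorem drop {Safe : Port Q → Prop} {σ : Bool} {p q : TW Q} (hp : p * p = p) (hqq : q * q = q)
    (hq : p * q * p = q) (hS : ∀ r, Safe r → R σ p q p r r) :
    ∃ Z : Finset (Port Q), (∀ r, R σ p p p r r → (∀ z ∈ Z, ¬ Sim p r z) → R σ p q p r r) ∧
      Z.card + 2 * (Bad Safe σ q).card ≤ 2 * (Bad Safe σ p).card := by
  classical
  have hcount := count_single (Bad Safe σ p) (Bad Safe σ q) (fun C D => C ⊆ D) ?_ ?_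
  rotate_left
  · intro C hC D hD D' hD' h1 h2
    obtain ⟨r, g1, -, rfl⟩ := mem_Bad.1 hC
    obtain ⟨d, -, -, rfl⟩ := mem_Bad.1 hD
    obtain ⟨d', -, -, rfl⟩ := mem_Bad.1 hD'
    have a1 : Eqv σ q d r := h1 (show r ∈ cls σ p r from ⟨g1, g1⟩)
    have a2 : Eqv σ q d' r := h2 (show r ∈ cls σ p r from ⟨g1, g1⟩)
    rw [cls_eq hqq a1, cls_eq hqq a2]
  · intro D hD
    obtain ⟨d, g1, g2, rfl⟩ := mem_Bad.1 hD
    obtain ⟨c, h1, h2⟩ := K3 hp hqq hq g1
    have hc := h2.symm.rec_left hqq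
    refine ⟨cls σ p c, mem_Bad.2 ⟨c, h1, fun r' hr' => g2 r' (h2.trans hqq (K3' hp hq hc hr')),
      rfl⟩, fun r' hr' => h2.trans hqq (K3' hp hq hc hr')⟩
  set X := (Bad Safe σ p).filter (fun a => ¬ ∃ b ∈ Bad Safe σ q, a ⊆ b ∧
    ∀ a' ∈ Bad Safe σ p, a' ⊆ b → a' = a) with hX
  have hrep : ∀ C : Set (Port Q), C ∈ X → ∃ z, z ∈ C := by
    intro C hC
    obtain ⟨r, g1, -, rfl⟩ := mem_Bad.1 (Finset.mem_filter.1 hC).1
    exact ⟨r, g1, g1⟩
  choose rep hrep using hrep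
  refine ⟨X.attach.image (fun C => rep C.1 C.2), ?_, ?_⟩
  · intro r hr H
    by_contra hfix
    have hbad : cls σ p r ∈ Bad Safe σ p :=
      mem_Bad.2 ⟨r, hr, fun r' h1 h2 => hfix (fix_of_eqv hp hq h1 (hS r' h2)), rfl⟩
    have hmem : cls σ p r ∈ X := by
      refine Finset.mem_filter.2 ⟨hbad, ?_⟩
      rintro ⟨D, hD, h1, h2⟩
      obtain ⟨d, g1, g2, rfl⟩ := mem_Bad.1 hD
      have a1 : Eqv σ q d r := h1 (show r ∈ cls σ p r from ⟨hr, hr⟩)
      refine hfix (K4 hp hqq hq (a1.symm.rec_left hqq) ?_)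
      intro c' h3 h4
      have hc := h4.symm.rec_left hqq
      have a2 : cls σ p c' ⊆ cls σ q d :=
        fun r' hr' => (a1.trans hqq h4).trans hqq (K3' hp hq hc hr')
      have a3 := h2 (cls σ p c') (mem_Bad.2 ⟨c', h3, fun r' hr' => g2 r' (a2 hr'), rfl⟩) a2
      have : c' ∈ cls σ p c' := ⟨h3, h3⟩
      rw [a3] at this
      exact this
    refine H (rep _ hmem) (Finset.mem_image.2 ⟨⟨_, hmem⟩, Finset.mem_attach _ _, rfl⟩) ⟨σ, ?_⟩
    exact hrep _ hmem
  · have : (X.attach.image (fun C => rep C.1 C.2)).card ≤ X.card :=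
      Finset.card_image_le.trans (by simp)
    have h2 : X.card + 2 * (Bad Safe σ q).card ≤ 2 * (Bad Safe σ p).card := by
      convert hcount
    omega

theorem bad_init {σ : Bool} {f : TW Q} (hf : f * f = f) (Z : Finset (Port Q)) :
    (Bad (fun r => R σ f f f r r ∧ ∀ z ∈ Z, ¬ Sim f r z) σ f).card ≤ Z.card := by
  classical
  refine le_trans (Finset.card_le_card ?_) (Finset.card_image_le (f := cls σ f))
  intro C hC
  obtain ⟨r, g1, g2, rfl⟩ := mem_Bad.1 hC
  have := g2 r ⟨g1, g1⟩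
  push Not at this
  obtain ⟨z, hz, h⟩ := this g1
  exact Finset.mem_image.2 ⟨z, hz, (cls_eq hf (eqv_of_sim hf g1 h)).symm⟩

end Crest.Agent.R294
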