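import Crest.Agent.R294.Core
import Crest.Prelude.Def_TwoWay

/-!
Two-way automata give systems of behaviours.
-/

set_option autoImplicit false

namespace Crest.Agent.R294

open Crest.TwoWay

variable {α σ : Type*} (A : TwoWayNFA α σ)

def Stay (c : Cell α) (s s' : σ) : Prop := s ∉ A.accept ∧ (s', HeadMove.stay) ∈ A.step s c

/-- the behaviour of one cell; the state `none` means "already accepted" and runs to the right -/
def cellBeh (c : Cell α) : TW (Option σ) := fun u v =>
  (u = (none, true) ∧ v = (none, true)) ∨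
  ∃ s s1, u.1 = some s ∧ Relation.ReflTransGen (Stay A c) s s1 ∧
    ((s1 ∈ A.accept ∧ v = (none, true)) ∨
      (s1 ∉ A.accept ∧ ∃ s', v.1 = some s' ∧
        (s', if v.2 then HeadMove.moveRight else HeadMove.moveLeft) ∈ A.step s1 c))

def wordBeh (w : List α) : List (TW (Option σ)) := w.map (fun a => cellBeh A (Cell.letter a))

def tape (w : List α) : List (TW (Option σ)) :=
  [cellBeh A Cell.leftEnd] ++ wordBeh A w ++ [cellBeh A Cell.rightEnd]

theorem tape_get (w : List α) (k : ℕ) (hk : k ≤ w.length + 1) :
    (tape A w)[k]? = some (cellBeh A (scan w k)) := by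
  unfold tape scan wordBeh
  rcases k with _ | k
  · simp
  · by_cases h : k < w.length
    · simp [List.getElem?_append_left, h]
    · have : k = w.length := by omega
      subst this
      simp

theorem tape_length (w : List α) : (tape A w).length = w.length + 2 := by
  simp [tape, wordBeh]

theorem tape_get' {w : List α} {k : ℕ} {c : TW (Option σ)} (h : (tape A w)[k]? = some c) :
    k ≤ w.length + 1 ∧ c = cellBeh A (scan w k) := by
  have hk : k ≤ w.length + 1 := by
    by_contra hh
    rw [List.getElem?_eq_none (by rw [tape_length]; omega)] at h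
    cases h
  rw [tape_get A w k hk] at h
  exact ⟨hk, (Option.some.inj h).symm⟩

theorem sweep (w : List α) (d : ℕ) : ∀ j, j + d = w.length + 2 →
    Reach (tape A w) (j, (none, true)) (w.length + 2, (none, true)) := by
  induction d with
  | zero => intro j hj; rw [← hj]; exact Reach.refl
  | succ d ih =>
    intro j hj
    refine Reach.trans (step_right (tape_get A w j (by omega)) (Or.inl ⟨rfl, rfl⟩) rfl rfl).reach
      (ih (j + 1) (by omega))

theorem accepts_iff (w : List α) :
    A.Accepts w ↔ Reach (tape A w) (0, (some A.start, true)) (w.length + 2, (none, true)) := by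
  constructor
  · rintro ⟨c, hc, hacc⟩
    let Inv : σ × ℕ → Prop := fun c => c.2 ≤ w.length + 1 ∧ ∃ (s0 : σ) (d : Bool),
      Reach (tape A w) (0, (some A.start, true)) (if d then c.2 else c.2 + 1, (some s0, d)) ∧
      Relation.ReflTransGen (Stay A (scan w c.2)) s0 c.1
    have acc_of : ∀ c, Inv c → c.1 ∈ A.accept →
        Reach (tape A w) (0, (some A.start, true)) (w.length + 2, (none, true)) := by
      rintro c ⟨h1, s0, d, h2, h3⟩ h4
      refine h2.trans (Reach.trans (b := (c.2 + 1, (none, true))) (Step.reach ?_)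
        (sweep A w (w.length + 1 - c.2) _ (by omega)))
      exact ⟨c.2, _, tape_get A w _ h1, Or.inr ⟨s0, c.1, rfl, h3, Or.inl ⟨h4, rfl⟩⟩, rfl, by simp⟩
    have main : ∀ c, Relation.ReflTransGen (A.Step w) (A.start, 0) c →
        Reach (tape A w) (0, (some A.start, true)) (w.length + 2, (none, true)) ∨ Inv c := by
      intro c hc
      induction hc with
      | refl => exact Or.inr ⟨by simp, A.start, true, Reach.refl, Relation.ReflTransGen.refl⟩
      | @tail c c' _ hstep ih =>
        rcases ih with ih | ih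
        · exact Or.inl ih
        by_cases ha : c.1 ∈ A.accept
        · exact Or.inl (acc_of c ih ha)
        right
        obtain ⟨h1, s0, d, h2, h3⟩ := ih
        obtain ⟨m, hm1, hm2⟩ := hstep
        cases m with
        | stay =>
          have : c'.2 = c.2 := by simpa [movePos] using hm2.symm
          refine ⟨by omega, s0, d, by rw [this]; exact h2, ?_⟩
          rw [this]
          exact h3.tail ⟨ha, hm1⟩
        | moveLeft =>
          have : c.2 = c'.2 + 1 := by
            simp only [movePos] at hm2
            split_ifs at hm2 with h0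
            have := Option.some.inj hm2
            omega
          refine ⟨by omega, c'.1, false, h2.trans (Step.reach ?_), Relation.ReflTransGen.refl⟩
          exact ⟨c.2, _, tape_get A w _ h1,
            Or.inr ⟨s0, c.1, rfl, h3, Or.inr ⟨ha, c'.1, rfl, by simpa using hm1⟩⟩, rfl,
            by simp [this]⟩
        | moveRight =>
          have : c'.2 = c.2 + 1 ∧ c'.2 ≤ w.length + 1 := by
            simp only [movePos] at hm2
            split_ifs at hm2 with h0
            have := Option.some.inj hm2
            omega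
          refine ⟨this.2, c'.1, true, h2.trans (Step.reach ?_), Relation.ReflTransGen.refl⟩
          exact ⟨c.2, _, tape_get A w _ h1,
            Or.inr ⟨s0, c.1, rfl, h3, Or.inr ⟨ha, c'.1, rfl, by simpa using hm1⟩⟩, rfl,
            by simp [this.1]⟩
    rcases main c hc with h | h
    · exact h
    · exact acc_of c h hacc
  · intro h
    let Inv : ℕ × Port (Option σ) → Prop := fun n => A.Accepts w ∨ ∃ s, n.2.1 = some s ∧
      ∀ k, k ≤ w.length + 1 → n.1 = (if n.2.2 then k else k + 1) →
        Relation.ReflTransGen (A.Step w) (A.start, 0) (s, k)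
    have main : ∀ n, Reach (tape A w) (0, (some A.start, true)) n → Inv n := by
      intro n hn
      induction hn with
      | refl =>
        refine Or.inr ⟨A.start, rfl, fun k _ hk => ?_⟩
        have : k = 0 := by simpa using hk.symm
        rw [this]
      | @tail n n' _ hstep ih =>
        rcases ih with ih | ⟨s, hs, ih⟩
        · exact Or.inl ih
        obtain ⟨k, c, hk, hc, g1, g2⟩ := hstep
        obtain ⟨hk1, rfl⟩ := tape_get' A hk
        have h0 := ih k hk1 g1
        rcases hc with ⟨h1, -⟩ | ⟨s0, s1, h1, h2, h3⟩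
        · rw [h1] at hs; cases hs
        have : s0 = s := by rw [hs] at h1; exact (Option.some.inj h1).symm
        subst this
        have h4 : Relation.ReflTransGen (A.Step w) (A.start, 0) (s1, k) := by
          clear h3
          induction h2 with
          | refl => exact h0
          | tail _ hst ih2 => exact ih2.tail ⟨HeadMove.stay, hst.2, rfl⟩
        rcases h3 with ⟨h5, -⟩ | ⟨-, s', h6, h7⟩
        · exact Or.inl ⟨_, h4, h5⟩
        · refine Or.inr ⟨s', h6, fun k' hk' e => h4.tail ⟨_, h7, ?_⟩⟩
          rw [g2] at e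
          by_cases hd : n'.2.2 = true
          · simp only [hd, if_true] at e ⊢
            simp only [movePos]
            rw [if_neg (by omega), e]
          · simp only [hd] at e ⊢
            simp only [movePos, Bool.false_eq_true, if_false] at e ⊢
            rw [if_neg (by omega), e]
            simp
    rcases main _ h with h | ⟨s, hs, -⟩
    · exact h
    · cases hs

theorem accepts_mono (x w w' y : List α) (hw : w ≠ [])
    (h : ∀ u v, Beh (wordBeh A w) u v → Beh (wordBeh A w') u v) (hacc : A.Accepts (x ++ w ++ y)) :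
    A.Accepts (x ++ w' ++ y) := by
  rw [accepts_iff] at hacc ⊢
  have e : ∀ w, tape A (x ++ w ++ y) = ([cellBeh A Cell.leftEnd] ++ wordBeh A x) ++ wordBeh A w ++
      (wordBeh A y ++ [cellBeh A Cell.rightEnd]) := by
    intro w; simp [tape, wordBeh]
  rw [e] at hacc ⊢
  refine replace _ _ (wordBeh A w') _ (by simpa [wordBeh] using hw) _ _ 0 _ ?_ ?_ hacc
    (fun u v _ hb _ => h u v hb)
  · unfold Corr; simp
  · unfold Corr; simp [wordBeh]; omega

/-! ### determinism -/

def Func {Q : Type*} (a : TW Q) : Prop := ∀ u v v', a u v → a u v' → v = v'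

theorem terminal_eq {β : Type*} {r : β → β → Prop} (hr : Relator.RightUnique r) {a b b' : β}
    (h : Relation.ReflTransGen r a b) (h' : Relation.ReflTransGen r a b') (hb : ∀ c, ¬ r b c)
    (hb' : ∀ c, ¬ r b' c) : b = b' := by
  rcases Relation.ReflTransGen.total_of_right_unique hr h h' with g | g
  · rcases g.cases_head with g | ⟨c, g, -⟩
    · exact g
    · exact absurd g (hb c)
  · rcases g.cases_head with g | ⟨c, g, -⟩
    · exact g.symm
    · exact absurd g (hb' c)

theorem func_beh {Q : Type*} (w : List (TW Q)) (hw : ∀ c ∈ w, Func c) : Func (Beh w) := by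
  intro u v v' h h'
  have hr : Relator.RightUnique (Step w) := by
    rintro n n1 n2 ⟨k, c, hk, hc, g1, g2⟩ ⟨k', c', hk', hc', g1', g2'⟩
    have : k = k' := by rw [g1] at g1'; split_ifs at g1' <;> omega
    subst this
    have : c = c' := by rw [hk] at hk'; exact Option.some.inj hk'
    subst this
    have e := hw c (List.mem_of_getElem? hk) _ _ _ hc hc'
    exact Prod.ext (by rw [g2, g2', e]) e
  have ht : ∀ (v : Port Q) n, ¬ Step w (if v.2 then w.length else 0, v) n := by
    rintro v n ⟨k, c, hk, -, g1, -⟩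
    by_cases hv : v.2 = true
    · simp only [hv, if_true] at g1
      rw [List.getElem?_eq_none (by omega)] at hk
      cases hk
    · simp [hv] at g1
  exact (Prod.mk.inj (terminal_eq hr h h' (ht v) (ht v'))).2

theorem func_cell (hA : A.IsDeterministic) (c : Cell α) : Func (cellBeh A c) := by
  have hr : Relator.RightUnique (Stay A c) := by
    rintro s s1 s2 ⟨-, h1⟩ ⟨-, h2⟩
    exact (Prod.mk.inj (hA s c h1 h2)).1
  rintro u v v' (⟨h1, h2⟩ | ⟨s, s1, h1, h2, h3⟩) (⟨h1', h2'⟩ | ⟨s', s1', h1', h2', h3'⟩)
  · rw [h2, h2']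
  · rw [h1] at h1'; cases h1'
  · rw [h1'] at h1; cases h1
  have : s' = s := by rw [h1] at h1'; exact (Option.some.inj h1').symm
  subst this
  have ht : ∀ (s1 : σ) (v : Port (Option σ)), ((s1 ∈ A.accept ∧ v = (none, true)) ∨
      (s1 ∉ A.accept ∧ ∃ s', v.1 = some s' ∧
        (s', if v.2 then HeadMove.moveRight else HeadMove.moveLeft) ∈ A.step s1 c)) →
      ∀ t, ¬ Stay A c s1 t := by
    rintro s1 v (⟨g, -⟩ | ⟨-, s', -, g⟩) t ⟨k1, k2⟩
    · exact k1 g
    · have := (Prod.mk.inj (hA s1 c g k2)).2
      split_ifs at this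
  have := terminal_eq hr h2 h2' (ht _ _ h3) (ht _ _ h3')
  subst this
  rcases h3 with ⟨g, rfl⟩ | ⟨g, t, g1, g2⟩ <;> rcases h3' with ⟨g', e⟩ | ⟨g', t', g1', g2'⟩
  · exact e.symm
  · exact absurd g g'
  · exact absurd g' g
  · obtain ⟨e1, e2⟩ := Prod.mk.inj (hA s1 c g2 g2')
    refine Prod.ext (by rw [g1, g1', e1]) ?_
    by_cases hv : v.2 = true <;> by_cases hv' : v'.2 = true <;> simp_all

theorem func_sub {Q : Type*} {e a : TW Q} (ha : Func a) (h : e * a * e = a)
    (hsub : ∀ u v, e u v → a u v) (u v : Port Q) (huv : a u v) : e u v := by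
  have h1 : Beh [e, a, e] u v := by rw [beh_three, h]; exact huv
  rcases Relation.ReflTransGen.cases_head h1 with h0 | ⟨n, ⟨k, c, hk, hc, g1, -⟩, -⟩
  · exfalso
    obtain ⟨e1, e2⟩ := Prod.mk.inj h0
    subst e2
    split_ifs at e1 <;> simp at e1
  · have : c = e := by
      by_cases hu : u.2 = true
      · simp only [hu, if_true] at g1
        subst g1
        simpa using hk.symm
      · have : k = 2 := by simpa [hu] using g1.symm
        subst this
        simpa using hk.symm
    subst this
    rw [← ha _ _ _ (hsub _ _ hc) huv]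
    exact hc

/-! ### the system of a machine reading relations -/

theorem wordRel_append {h : ℕ} (w w' : List (Fin h → Fin h → Bool)) (a c : Fin h) :
    wordRel (w ++ w') a c ↔ ∃ b, wordRel w a b ∧ wordRel w' b c := by
  induction w generalizing a with
  | nil => simp [wordRel]
  | cons R w ih =>
    simp only [List.cons_append, wordRel, ih]
    constructor
    · rintro ⟨b, h1, b', h2, h3⟩
      exact ⟨b', ⟨b, h1, h2⟩, h3⟩
    · rintro ⟨b', ⟨b, h1, h2⟩, h3⟩
      exact ⟨b, h1, b', h2, h3⟩

theorem live_test {h : ℕ} (w : List (Fin h → Fin h → Bool)) (i j : Fin h) :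
    [fun a b => decide (a = i ∧ b = i)] ++ w ++ [fun a b => decide (a = j ∧ b = j)] ∈ liveness h ↔
      wordRel w i j := by
  change (∃ a b, wordRel _ a b) ↔ _
  simp only [wordRel_append, wordRel]
  constructor
  · rintro ⟨a, b, c, ⟨d, ⟨e, h1, rfl⟩, h2⟩, f, h3, rfl⟩
    simp only [decide_eq_true_eq] at h1 h3
    obtain ⟨-, rfl⟩ := h1
    obtain ⟨rfl, -⟩ := h3
    exact h2
  · intro hw
    exact ⟨i, j, j, ⟨i, ⟨i, by simp, rfl⟩, hw⟩, j, by simp, rfl⟩

def NS {h : ℕ} (A : TwoWayNFA (Fin h → Fin h → Bool) σ) :
    Subsemigroup (TW (Option σ) × BR (Fin h)) where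
  carrier := {n | ∃ w, w ≠ [] ∧ n.1 = Beh (wordBeh A w) ∧ n.2 = wordRel w}
  mul_mem' := by
    rintro a b ⟨w, h1, h2, h3⟩ ⟨w', h1', h2', h3'⟩
    refine ⟨w ++ w', by simp [h1], ?_, ?_⟩
    · rw [Prod.fst_mul, h2, h2', ← beh_append _ _ (by simpa [wordBeh] using h1)
        (by simpa [wordBeh] using h1')]
      simp [wordBeh]
    · rw [Prod.snd_mul, h3, h3']
      exact BR.ext (fun a c => (wordRel_append w w' a c).symm)

theorem lower_bound {h : ℕ} (hh : 2 ≤ h) [Fintype σ] (A : TwoWayNFA (Fin h → Fin h → Bool) σ)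
    (hB : ∀ w w' : List (Fin h → Fin h → Bool), w ≠ [] → w' ≠ [] →
      Beh (wordBeh A w) * Beh (wordBeh A w') * Beh (wordBeh A w) = Beh (wordBeh A w') →
      (∀ u v, Beh (wordBeh A w) u v → Beh (wordBeh A w') u v) →
      ∀ i j, wordRel w' i j → wordRel w i j) :
    2 ^ ((h - 2) / 33) ≤ 2 * (Fintype.card σ + 1) := by
  classical
  have : Finite (TW (Option σ)) := by unfold TW; infer_instance
  have : Finite (BR (Fin h)) := by unfold BR; infer_instance
  let S : Sys (NS A) (Option σ) (Fin h) :=
    { τ := fun n => n.1.1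
      ψ := fun n => n.1.2
      τ_mul := fun _ _ => rfl
      ψ_mul := fun _ _ => rfl
      surj := fun R => ⟨⟨(Beh (wordBeh A [fun a b => decide (R a b)]), R),
        [fun a b => decide (R a b)], by simp, rfl, BR.ext (fun a b => by simp [wordRel])⟩, rfl⟩
      hB := by
        rintro ⟨e, w, h1, h2, h3⟩ ⟨a, w', h1', h2', h3'⟩ - hea hsub
        have h4 : e.1 * a.1 * e.1 = a.1 := congrArg (fun n : NS A => n.1.1) hea
        simp only [h2, h2', h3, h3'] at h4 hsub ⊢
        exact hB w w' h1 h1' h4 hsub }
  simpa using S.core (by simpa using hh)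

theorem lower_compl {h : ℕ} (hh : 2 ≤ h) [Fintype σ] (A : TwoWayNFA (Fin h → Fin h → Bool) σ)
    (hA : A.language = (liveness h)ᶜ) : 2 ^ ((h - 2) / 33) ≤ 2 * (Fintype.card σ + 1) := by
  refine lower_bound hh A (fun w w' h1 _ _ hsub i j hw => ?_)
  by_contra hn
  rw [← live_test] at hw hn
  have h2 : A.Accepts _ := (show _ ∈ A.language by rw [hA]; exact hn)
  have h3 : _ ∈ A.language := accepts_mono A _ w w' _ h1 hsub h2
  rw [hA] at h3
  exact h3 hw

theorem lower_det {h : ℕ} (hh : 2 ≤ h) [Fintype σ] (A : TwoWayNFA (Fin h → Fin h → Bool) σ)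
    (hd : A.IsDeterministic) (hA : A.language = liveness h) :
    2 ^ ((h - 2) / 33) ≤ 2 * (Fintype.card σ + 1) := by
  refine lower_bound hh A (fun w w' _ h1 h2 hsub i j hw => ?_)
  have hf : Func (Beh (wordBeh A w')) := func_beh _ (by
    intro c hc
    obtain ⟨a, -, rfl⟩ := List.mem_map.1 hc
    exact func_cell A hd _)
  rw [← live_test] at hw ⊢
  have h2' : A.Accepts _ := (show _ ∈ A.language by rw [hA]; exact hw)
  have h3 : _ ∈ A.language := accepts_mono A _ w' w _ h1 (func_sub hf h2 hsub) h2'
  rwa [hA] at h3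

end Crest.Agent.R294
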