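import Crest.Agent.R294.Link

/-!
The one-way nondeterministic automaton for liveness.
-/

set_option autoImplicit false

namespace Crest.Agent.R294

open Crest.TwoWay

variable {h : ℕ} {τ : Type*}

def liveNFA (s0 s1 : τ) (pt : Fin h → τ) : TwoWayNFA (Fin h → Fin h → Bool) τ where
  start := s0
  accept := {s1}
  step q c := {p | (q = s0 ∧ c = Cell.leftEnd ∧ ∃ i, p = (pt i, HeadMove.moveRight)) ∨
    (∃ i j R, q = pt i ∧ c = Cell.letter R ∧ R i j = true ∧ p = (pt j, HeadMove.moveRight)) ∨
    (∃ i, q = pt i ∧ c = Cell.rightEnd ∧ p = (s1, HeadMove.stay))}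

theorem liveNFA_noLeft (s0 s1 : τ) (pt : Fin h → τ) : (liveNFA s0 s1 pt).NoLeftMoves := by
  rintro q a p (⟨-, -, i, rfl⟩ | ⟨i, j, R, -, -, -, rfl⟩ | ⟨i, -, -, rfl⟩) <;> simp

theorem scan_succ_lt {α : Type*} (w : List α) (k : ℕ) (hk : k < w.length) :
    scan w (k + 1) = Cell.letter w[k] := by
  simp [scan, hk]

theorem scan_succ_ge {α : Type*} (w : List α) (k : ℕ) (hk : w.length ≤ k) :
    scan w (k + 1) = Cell.rightEnd := by
  simp [scan, List.getElem?_eq_none hk]

theorem wordRel_take_succ (w : List (Fin h → Fin h → Bool)) (k : ℕ) (hk : k < w.length)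
    (a c : Fin h) :
    wordRel (w.take (k + 1)) a c ↔ ∃ b, wordRel (w.take k) a b ∧ w[k] b c = true := by
  rw [List.take_succ_eq_append_getElem hk, wordRel_append]
  simp [wordRel]

theorem liveNFA_language (s0 s1 : τ) (pt : Fin h → τ) (h01 : s0 ≠ s1) (h0 : ∀ i, pt i ≠ s0)
    (h1 : ∀ i, pt i ≠ s1) (hinj : Function.Injective pt) :
    (liveNFA s0 s1 pt).language = liveness h := by
  ext w
  change (liveNFA s0 s1 pt).Accepts w ↔ ∃ a b, wordRel w a b
  constructor
  · rintro ⟨c, hc, hacc⟩
    have main : ∀ c, Relation.ReflTransGen ((liveNFA s0 s1 pt).Step w) (s0, 0) c →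
        (∃ a b, wordRel w a b) ∨ c = (s0, 0) ∨
          ∃ j k a, c = (pt j, k + 1) ∧ k ≤ w.length ∧ wordRel (w.take k) a j := by
      intro c hc
      induction hc with
      | refl => exact Or.inr (Or.inl rfl)
      | @tail c c' _ hstep ih =>
        obtain ⟨q', k'⟩ := c'
        obtain ⟨m, hm1, hm2⟩ := hstep
        rcases ih with ih | rfl | ⟨j, k, a, rfl, hk, hr⟩
        · exact Or.inl ih
        · rcases hm1 with ⟨-, -, i, e⟩ | ⟨i, j, R, e, -⟩ | ⟨i, e, -⟩
          · obtain ⟨rfl, rfl⟩ := Prod.mk.inj e
            have : k' = 1 := by simpa [movePos] using hm2.symm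
            subst this
            exact Or.inr (Or.inr ⟨i, 0, i, rfl, by simp, by simp [wordRel]⟩)
          · exact absurd e.symm (h0 i)
          · exact absurd e.symm (h0 i)
        · rcases hm1 with ⟨e, -⟩ | ⟨i, j', R, e, e2, hR, e3⟩ | ⟨i, e, e2, -⟩
          · exact absurd e (h0 j)
          · obtain rfl := hinj e
            obtain ⟨rfl, rfl⟩ := Prod.mk.inj e3
            have hlt : k < w.length := by
              by_contra hh
              simp only [scan_succ_ge w k (by omega)] at e2
              cases e2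
            simp only [scan_succ_lt w k hlt] at e2
            obtain rfl := Cell.letter.inj e2
            have : k' = k + 1 + 1 := by
              simp only [movePos] at hm2
              rw [if_neg (by omega)] at hm2
              exact (Option.some.inj hm2).symm
            subst this
            exact Or.inr (Or.inr ⟨j', k + 1, a, rfl, hlt,
              (wordRel_take_succ w k hlt a j').2 ⟨_, hr, hR⟩⟩)
          · have hge : w.length ≤ k := by
              by_contra hh
              simp only [scan_succ_lt w k (by omega)] at e2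
              cases e2
            rw [List.take_of_length_le hge] at hr
            exact Or.inl ⟨_, _, hr⟩
    rcases main c hc with g | rfl | ⟨j, k, a, rfl, -⟩
    · exact g
    · exact absurd hacc h01
    · exact absurd hacc (h1 j)
  · rintro ⟨a, b, hab⟩
    have main : ∀ k, k ≤ w.length → ∀ j, wordRel (w.take k) a j →
        Relation.ReflTransGen ((liveNFA s0 s1 pt).Step w) (s0, 0) (pt j, k + 1) := by
      intro k
      induction k with
      | zero =>
        intro _ j _
        exact Relation.ReflTransGen.single ⟨HeadMove.moveRight,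
          Or.inl ⟨rfl, by simp [scan], j, rfl⟩, by simp [movePos]⟩
      | succ k ih =>
        intro hk j hj
        obtain ⟨i, g1, g2⟩ := (wordRel_take_succ w k hk a j).1 hj
        refine (ih (by omega) i g1).tail ⟨HeadMove.moveRight,
          Or.inr (Or.inl ⟨i, j, _, rfl, scan_succ_lt w k hk, g2, rfl⟩), ?_⟩
        simp only [movePos]
        rw [if_neg (by omega)]
    refine ⟨(s1, w.length + 1), (main w.length le_rfl b (by simpa using hab)).tail
      ⟨HeadMove.stay, Or.inr (Or.inr ⟨b, rfl, scan_succ_ge w _ le_rfl, rfl⟩), rfl⟩, rfl⟩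

theorem exists_live (h m : ℕ) (hm : h + 2 ≤ m) :
    ∃ A : TwoWayNFA (Fin h → Fin h → Bool) (Fin m), A.NoLeftMoves ∧ A.language = liveness h := by
  refine ⟨liveNFA ⟨0, by omega⟩ ⟨1, by omega⟩ (fun i => ⟨i.1 + 2, by omega⟩), liveNFA_noLeft _ _ _,
    liveNFA_language _ _ _ (by simp) (by simp) (by simp) ?_⟩
  intro i j hij
  simp only [Fin.mk.injEq] at hij
  exact Fin.ext (by omega)

end Crest.Agent.R294
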